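import Vale.Agent.P370.H253.Coul2

/-! Consequences of the Fefferman - de la Llave representation: positivity, Cauchy - Schwarz and the
localised lower bound of the Coulomb energy. -/

namespace Vale.Agent.P370.H253

open MeasureTheory Metric Set
open scoped Pointwise

noncomputable section

lemma mass_of_nonpos (f : R3 → ℝ) {p : R3 × ℝ} (h : p.2 ≤ 0) : mass f p = 0 := by
  unfold mass
  rw [ball_eq_empty.2 h]
  simp

lemma mass_mul_nonneg (f : R3 → ℝ) (p : R3 × ℝ) : 0 ≤ (p.2 ^ 5)⁻¹ * (mass f p * mass f p) := by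
  by_cases h : p.2 ≤ 0
  · rw [mass_of_nonpos f h]; simp
  · have : 0 < p.2 := not_le.1 h
    have h2 := mul_self_nonneg (mass f p)
    positivity

lemma mass_const_mul (c : ℝ) (f : R3 → ℝ) (p : R3 × ℝ) :
    mass (fun x => c * f x) p = c * mass f p := by
  unfold mass
  rw [integral_const_mul]

lemma mass_add {f g : R3 → ℝ} (hf : Nice f) (hg : Nice g) (p : R3 × ℝ) :
    mass (fun x => f x + g x) p = mass f p + mass g p := by
  unfold mass
  rw [integral_add hf.int.integrableOn hg.int.integrableOn]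

lemma mass_sum {ι : Type*} (s : Finset ι) {f : ι → R3 → ℝ} (hf : ∀ i ∈ s, Nice (f i)) (p : R3 × ℝ) :
    mass (fun x => ∑ i ∈ s, f i x) p = ∑ i ∈ s, mass (f i) p := by
  unfold mass
  rw [integral_finsetSum]
  intro i hi
  exact (hf i hi).int.integrableOn

lemma mass_nonneg {f : R3 → ℝ} (hf : ∀ x, 0 ≤ f x) (p : R3 × ℝ) : 0 ≤ mass f p :=
  integral_nonneg hf

lemma mass_mono_ball {f : R3 → ℝ} (hf : Nice f) (h0 : ∀ x, 0 ≤ f x) {p q : R3 × ℝ}
    (h : ball p.1 p.2 ⊆ ball q.1 q.2) : mass f p ≤ mass f q := by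
  unfold mass
  exact setIntegral_mono_set hf.int.integrableOn (Filter.Eventually.of_forall h0)
    (Filter.Eventually.of_forall h)

/-! ### algebra of the form -/

lemma coul_comm (f g : R3 → ℝ) : coul f g = coul g f := by
  unfold coul
  have h := (Measure.measurePreserving_swap (μ := (volume : Measure R3))
    (ν := (volume : Measure R3))).integral_comp MeasurableEquiv.prodComm.measurableEmbedding
    (fun p : R3 × R3 => g p.1 * f p.2 / ‖p.1 - p.2‖)
  rw [Measure.volume_eq_prod, ← h]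
  congr 1
  ext p
  simp only [Prod.fst_swap, Prod.snd_swap]
  rw [norm_sub_rev, mul_comm]

lemma coul_const_mul_left (c : ℝ) (f g : R3 → ℝ) : coul (fun x => c * f x) g = c * coul f g := by
  unfold coul
  rw [← integral_const_mul]
  congr 1
  ext p
  ring

lemma coul_const_mul_right (c : ℝ) (f g : R3 → ℝ) : coul f (fun x => c * g x) = c * coul f g := by
  rw [coul_comm, coul_const_mul_left, coul_comm]

lemma coul_add_left {f f' g : R3 → ℝ} (hf : Nice f) (hf' : Nice f') (hg : Nice g) :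
    coul (fun x => f x + f' x) g = coul f g + coul f' g := by
  unfold coul
  rw [← integral_add (integrable_coul hf hg) (integrable_coul hf' hg)]
  congr 1
  ext p
  ring

lemma coul_add_right {f g g' : R3 → ℝ} (hf : Nice f) (hg : Nice g) (hg' : Nice g') :
    coul f (fun x => g x + g' x) = coul f g + coul f g' := by
  rw [coul_comm, coul_add_left hg hg' hf, coul_comm g, coul_comm g']

lemma coul_sum_left {ι : Type*} (s : Finset ι) {f : ι → R3 → ℝ} {g : R3 → ℝ}
    (hf : ∀ i ∈ s, Nice (f i)) (hg : Nice g) :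
    coul (fun x => ∑ i ∈ s, f i x) g = ∑ i ∈ s, coul (f i) g := by
  unfold coul
  rw [← integral_finsetSum s (fun i hi => integrable_coul (hf i hi) hg)]
  congr 1
  ext p
  rw [Finset.sum_mul, Finset.sum_div]

lemma coul_sum_right {ι : Type*} (s : Finset ι) {f : R3 → ℝ} {g : ι → R3 → ℝ}
    (hf : Nice f) (hg : ∀ i ∈ s, Nice (g i)) :
    coul f (fun x => ∑ i ∈ s, g i x) = ∑ i ∈ s, coul f (g i) := by
  rw [coul_comm, coul_sum_left s hg hf]
  exact Finset.sum_congr rfl fun i _ => coul_comm _ _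

lemma coul_eq_iterated {f g : R3 → ℝ} (hf : Nice f) (hg : Nice g) :
    coul f g = ∫ x, ∫ y, f x * g y / ‖x - y‖ := by
  have h := integrable_coul hf hg
  unfold coul
  rw [Measure.volume_eq_prod] at h ⊢
  rw [integral_prod _ h]

/-! ### positivity -/

theorem coul_nonneg {f : R3 → ℝ} (hf : Nice f) : 0 ≤ coul f f := by
  rw [coul_rep hf hf]
  exact mul_nonneg (inv_nonneg.2 C0_pos.le) (integral_nonneg fun p => mass_mul_nonneg f p)

/-- Cauchy - Schwarz -/
theorem coul_cs {f g : R3 → ℝ} (hf : Nice f) (hg : Nice g) :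
    coul f g ^ 2 ≤ coul f f * coul g g := by
  have key : ∀ t : ℝ, 0 ≤ coul g g * (t * t) + (2 * coul f g) * t + coul f f := by
    intro t
    have h := coul_nonneg (hf.add (hg.const_mul t))
    rw [coul_add_left hf (hg.const_mul t) (hf.add (hg.const_mul t)),
      coul_add_right hf hf (hg.const_mul t),
      coul_add_right (hg.const_mul t) hf (hg.const_mul t), coul_const_mul_right,
      coul_const_mul_left, coul_const_mul_left, coul_const_mul_right, coul_comm g f] at h
    linarith
  have := discrim_le_zero key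
  unfold discrim at this
  nlinarith

/-- the energy of a charge, in terms of its `L¹` and sup norms -/
theorem coul_abs_le {f g : R3 → ℝ} (hf : Nice f) (hg : Nice g) {M R : ℝ} (hM : ∀ y, |g y| ≤ M)
    (hR : 0 < R) :
    |coul f g| ≤ (∫ x, |f x|) * (2 * Real.pi * M * R ^ 2 + (∫ y, |g y|) / R) := by
  rw [coul_eq_iterated hf hg]
  calc |∫ x, ∫ y, f x * g y / ‖x - y‖|
      ≤ ∫ x, |f x| * (2 * Real.pi * M * R ^ 2 + (∫ y, |g y|) / R) := by
        rw [← Real.norm_eq_abs]
        refine norm_integral_le_of_norm_le (hf.int.abs.mul_const _)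
          (Filter.Eventually.of_forall fun x => ?_)
        have h1 : ∫ y, f x * g y / ‖x - y‖ = f x * ∫ y, g y / ‖x - y‖ := by
          rw [← integral_const_mul]; congr 1; ext y; ring
        rw [h1, norm_mul, Real.norm_eq_abs]
        refine mul_le_mul_of_nonneg_left ?_ (abs_nonneg _)
        calc ‖∫ y, g y / ‖x - y‖‖ ≤ ∫ y, |g y| / ‖x - y‖ := by
              refine (norm_integral_le_integral_norm (fun y => g y / ‖x - y‖)).trans (le_of_eq ?_)
              refine congrArg (fun h : R3 → ℝ => ∫ y, h y) (funext fun y => ?_)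
              rw [norm_div, norm_norm, Real.norm_eq_abs]
          _ ≤ _ := pot_le hg hM hR x
    _ = _ := integral_mul_const (2 * Real.pi * M * R ^ 2 + (∫ y, |g y|) / R) (fun x => |f x|)

/-! ### the localised lower bound -/

lemma coul_eq_mass (f : R3 → ℝ) (hf : Nice f) :
    coul f f = C0⁻¹ * ∫ p : R3 × ℝ, (p.2 ^ 5)⁻¹ * (mass f p * mass f p) := coul_rep hf hf

/-- the region used for the charge number `i` -/
def reg (z : R3) (s : ℝ) : Set (R3 × ℝ) := ball z (s / 4) ×ˢ Icc s (2 * s)

lemma measurableSet_reg (z : R3) (s : ℝ) : MeasurableSet (reg z s) :=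
  measurableSet_ball.prod measurableSet_Icc

lemma integral_inv_pow5 {s : ℝ} (hs : 0 < s) :
    ∫ r in Icc s (2 * s), (r ^ 5)⁻¹ = 15 / (64 * s ^ 4) := by
  rw [integral_Icc_eq_integral_Ioc, ← intervalIntegral.integral_of_le (by linarith)]
  have h : ∀ r ∈ uIcc s (2 * s), HasDerivAt (fun r : ℝ => -(1 / 4) * (r ^ 4)⁻¹) ((r ^ 5)⁻¹) r := by
    intro r hr
    rw [uIcc_of_le (by linarith)] at hr
    have hr0 : r ≠ 0 := by
      have := hr.1
      intro h; linarith
    have h1 := ((hasDerivAt_pow 4 r).inv (pow_ne_zero 4 hr0)).const_mul (-(1 / 4 : ℝ))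
    have h2 : -(1 / 4 : ℝ) * (-((4 : ℕ) * r ^ (4 - 1)) / (r ^ 4) ^ 2) = (r ^ 5)⁻¹ := by
      field_simp
      norm_num
    rw [h2] at h1
    exact h1
  rw [intervalIntegral.integral_eq_sub_of_hasDerivAt h]
  · field_simp
    ring
  · apply ContinuousOn.intervalIntegrable
    intro r hr
    rw [uIcc_of_le (by linarith)] at hr
    have hr0 : r ≠ 0 := by
      have := hr.1
      intro h; linarith
    exact ((continuousAt_id.pow 5).inv₀ (pow_ne_zero 5 hr0)).continuousWithinAt

lemma integral_reg {z : R3} {s : ℝ} (hs : 0 < s) :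
    ∫ p in reg z s, (p.2 ^ 5)⁻¹ = 5 * Real.pi / (1024 * s) := by
  unfold reg
  have h := setIntegral_prod_mul (μ := (volume : Measure R3)) (ν := (volume : Measure ℝ))
    (fun _ : R3 => (1 : ℝ)) (fun r : ℝ => (r ^ 5)⁻¹) (ball z (s / 4)) (Icc s (2 * s))
  simp only [one_mul] at h
  rw [Measure.volume_eq_prod, h, integral_inv_pow5 hs, setIntegral_const, real_ball _ (by linarith),
    om_eq]
  simp only [smul_eq_mul, mul_one]
  field_simp
  ring

lemma integrableOn_reg {z : R3} {s : ℝ} (hs : 0 < s) :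
    IntegrableOn (fun p : R3 × ℝ => (p.2 ^ 5)⁻¹) (reg z s) := by
  by_contra h
  have := integral_undef h
  rw [integral_reg hs] at this
  have hp := Real.pi_pos
  have : 0 < 5 * Real.pi / (1024 * s) := by positivity
  linarith

theorem coul_lower {ι : Type*} [Fintype ι] (ρ : ι → R3 → ℝ) (hρ : ∀ i, Nice (ρ i))
    (h0 : ∀ i x, 0 ≤ ρ i x) (z : ι → R3) {s μ ε : ℝ} (hs : 0 < s) (hμ : 0 ≤ μ) (hε : 0 ≤ ε)
    (hdisj : ∀ i j, i ≠ j → s / 2 ≤ dist (z i) (z j))
    (hin : ∀ i, μ ≤ mass (ρ i) (z i, 3 * s / 4))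
    (hout : ∀ i j, i ≠ j → mass (ρ j) (z i, 9 * s / 4) ≤ ε)
    (hme : (Fintype.card ι : ℝ) * ε ≤ μ / 2) (v : ι → ℝ) :
    15 / (32768 * s) * μ ^ 2 * ∑ i, v i ^ 2 ≤
      coul (fun x => ∑ i, v i * ρ i x) (fun x => ∑ i, v i * ρ i x) := by
  classical
  rcases isEmpty_or_nonempty ι with hι | hι
  · have : coul (fun x : R3 => ∑ i, v i * ρ i x) (fun x => ∑ i, v i * ρ i x) = 0 := by
      simp [coul]
    rw [this]
    simp
  set m : ℝ := (Fintype.card ι : ℝ) with hm
  have hm1 : 1 ≤ m := by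
    rw [hm]; exact_mod_cast Fintype.card_pos
  set F : R3 → ℝ := fun x => ∑ i, v i * ρ i x with hF
  have hFn : Nice F := Nice.sum Finset.univ fun i _ => (hρ i).const_mul (v i)
  set S : ℝ := ∑ i, v i ^ 2 with hS
  have hS0 : 0 ≤ S := Finset.sum_nonneg fun i _ => sq_nonneg _
  -- mass of F
  have hmF : ∀ p, mass F p = ∑ i, v i * mass (ρ i) p := by
    intro p
    rw [hF, mass_sum Finset.univ fun i _ => (hρ i).const_mul (v i)]
    exact Finset.sum_congr rfl fun i _ => mass_const_mul _ _ _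
  -- the pointwise bound
  have hpt : ∀ i, ∀ p ∈ reg (z i) s, μ ^ 2 * v i ^ 2 / 2 - m * ε ^ 2 * S ≤ mass F p * mass F p := by
    intro i p hp
    obtain ⟨hp1, hp2⟩ := hp
    have hp1' : dist p.1 (z i) < s / 4 := hp1
    have a1 : μ ≤ mass (ρ i) p := (hin i).trans (mass_mono_ball (hρ i) (h0 i) (by
      apply ball_subset_ball'
      rw [dist_comm]
      have := hp2.1
      linarith))
    have a2 : ∀ j, i ≠ j → mass (ρ j) p ≤ ε := fun j hj =>
      (mass_mono_ball (hρ j) (h0 j) (by
        apply ball_subset_ball'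
        have := hp2.2
        show p.2 + dist p.1 (z i) ≤ 9 * s / 4
        linarith)).trans (hout i j hj)
    have hb : (∑ j ∈ Finset.univ.erase i, v j * mass (ρ j) p) ^ 2 ≤ m * ε ^ 2 * S := by
      calc (∑ j ∈ Finset.univ.erase i, v j * mass (ρ j) p) ^ 2
          ≤ (∑ j ∈ Finset.univ.erase i, v j ^ 2) *
              ∑ j ∈ Finset.univ.erase i, mass (ρ j) p ^ 2 :=
            Finset.sum_mul_sq_le_sq_mul_sq _ _ _
        _ ≤ S * (m * ε ^ 2) := by
            have e1 : ∑ j ∈ Finset.univ.erase i, v j ^ 2 ≤ S :=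
              Finset.sum_le_sum_of_subset_of_nonneg (Finset.erase_subset _ _)
                (fun j _ _ => sq_nonneg _)
            have e2 : ∑ j ∈ Finset.univ.erase i, mass (ρ j) p ^ 2 ≤ m * ε ^ 2 := by
              calc ∑ j ∈ Finset.univ.erase i, mass (ρ j) p ^ 2
                  ≤ ∑ j ∈ Finset.univ.erase i, ε ^ 2 := by
                    refine Finset.sum_le_sum fun j hj => ?_
                    have hj' : i ≠ j := (Finset.ne_of_mem_erase hj).symm
                    exact pow_le_pow_left₀ (mass_nonneg (h0 j) p) (a2 j hj') 2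
                _ = (Finset.univ.erase i).card * ε ^ 2 := by
                    rw [Finset.sum_const, nsmul_eq_mul]
                _ ≤ m * ε ^ 2 := by
                    refine mul_le_mul_of_nonneg_right ?_ (sq_nonneg _)
                    rw [hm]
                    exact_mod_cast (Finset.card_le_card (Finset.erase_subset _ _))
            exact mul_le_mul e1 e2 (Finset.sum_nonneg fun j _ => sq_nonneg _) hS0
        _ = m * ε ^ 2 * S := by ring
    rw [hmF, ← Finset.add_sum_erase _ _ (Finset.mem_univ i)]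
    set b := ∑ j ∈ Finset.univ.erase i, v j * mass (ρ j) p
    set a := v i * mass (ρ i) p with ha
    have ha2 : μ ^ 2 * v i ^ 2 ≤ a ^ 2 := by
      rw [ha, mul_pow, mul_comm]
      exact mul_le_mul_of_nonneg_left (pow_le_pow_left₀ hμ a1 2) (sq_nonneg _)
    nlinarith [sq_nonneg (a + 2 * b)]
  -- comparison function
  set G : R3 × ℝ → ℝ := fun p => ∑ i, (reg (z i) s).indicator
    (fun p => (p.2 ^ 5)⁻¹ * (μ ^ 2 * v i ^ 2 / 2 - m * ε ^ 2 * S)) p with hG
  have hdis : ∀ i j, i ≠ j → ∀ p, p ∈ reg (z i) s → p ∉ reg (z j) s := by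
    intro i j hij p hp hq
    have h1 : dist p.1 (z i) < s / 4 := hp.1
    have h2 : dist p.1 (z j) < s / 4 := hq.1
    have h3 := dist_triangle (z i) p.1 (z j)
    rw [dist_comm (z i) p.1] at h3
    linarith [hdisj i j hij]
  have hGle : ∀ p, G p ≤ (p.2 ^ 5)⁻¹ * (mass F p * mass F p) := by
    intro p
    by_cases h : ∃ i, p ∈ reg (z i) s
    · obtain ⟨i, hi⟩ := h
      have : G p = (p.2 ^ 5)⁻¹ * (μ ^ 2 * v i ^ 2 / 2 - m * ε ^ 2 * S) := by
        rw [hG]
        simp only
        rw [Finset.sum_eq_single i, indicator_of_mem hi]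
        · intro j _ hj
          exact indicator_of_notMem (hdis i j hj.symm p hi) _
        · intro h; exact absurd (Finset.mem_univ i) h
      rw [this]
      refine mul_le_mul_of_nonneg_left (hpt i p hi) ?_
      have : 0 < p.2 := hs.trans_le hi.2.1
      positivity
    · have : G p = 0 := by
        rw [hG]
        exact Finset.sum_eq_zero fun i _ => indicator_of_notMem (fun hi => h ⟨i, hi⟩) _
      rw [this]
      exact mass_mul_nonneg F p
  have hint : ∀ i, Integrable ((reg (z i) s).indicator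
      (fun p => (p.2 ^ 5)⁻¹ * (μ ^ 2 * v i ^ 2 / 2 - m * ε ^ 2 * S))) := fun i =>
    (integrable_indicator_iff (measurableSet_reg _ _)).2 ((integrableOn_reg hs).mul_const _)
  have hIG : ∫ p, G p = 5 * Real.pi / (1024 * s) * ((μ ^ 2 / 2 - m ^ 2 * ε ^ 2) * S) := by
    rw [hG, integral_finsetSum _ fun i _ => hint i]
    have : ∀ i, ∫ p, (reg (z i) s).indicator
        (fun p => (p.2 ^ 5)⁻¹ * (μ ^ 2 * v i ^ 2 / 2 - m * ε ^ 2 * S)) p =
        5 * Real.pi / (1024 * s) * (μ ^ 2 * v i ^ 2 / 2 - m * ε ^ 2 * S) := by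
      intro i
      rw [integral_indicator (measurableSet_reg _ _), integral_mul_const, integral_reg hs]
    rw [Finset.sum_congr rfl fun i _ => this i, ← Finset.mul_sum, Finset.sum_sub_distrib,
      Finset.sum_const, Finset.card_univ, nsmul_eq_mul, ← hm, ← Finset.sum_div, ← Finset.mul_sum,
      ← hS]
    ring
  have hmono : ∫ p, G p ≤ ∫ p : R3 × ℝ, (p.2 ^ 5)⁻¹ * (mass F p * mass F p) :=
    integral_mono (integrable_finsetSum _ fun i _ => hint i) (integrable_mass hFn hFn) hGle
  have hε2 : m ^ 2 * ε ^ 2 ≤ μ ^ 2 / 4 := by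
    have : (m * ε) ^ 2 ≤ (μ / 2) ^ 2 := pow_le_pow_left₀ (by positivity) hme 2
    nlinarith
  have hC : 3 / (8 * Real.pi) ≤ C0⁻¹ := by
    rw [← inv_div]
    exact inv_anti₀ C0_pos C0_le
  have hpi := Real.pi_pos
  calc 15 / (32768 * s) * μ ^ 2 * S
      = 3 / (8 * Real.pi) * (5 * Real.pi / (1024 * s) * (μ ^ 2 / 4 * S)) := by
        field_simp
        ring
    _ ≤ C0⁻¹ * (5 * Real.pi / (1024 * s) * ((μ ^ 2 / 2 - m ^ 2 * ε ^ 2) * S)) := by
        refine mul_le_mul hC ?_ (by positivity) (inv_nonneg.2 C0_pos.le)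
        refine mul_le_mul_of_nonneg_left ?_ (by positivity)
        refine mul_le_mul_of_nonneg_right ?_ hS0
        linarith
    _ ≤ coul F F := by
        rw [coul_rep hFn hFn, ← hIG]
        exact mul_le_mul_of_nonneg_left hmono (inv_nonneg.2 C0_pos.le)

end

end Vale.Agent.P370.H253
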