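import Mathlib

/-!
# Coulomb form calculus on `ℝ³` (P370, block R1b)

Fefferman - de la Llave representation of the Coulomb kernel, positivity and Cauchy-Schwarz.
-/

namespace Vale.Agent.P370.H253

open MeasureTheory Metric Set
open scoped Pointwise

noncomputable section

abbrev R3 : Type := EuclideanSpace ℝ (Fin 3)

/-- volume of the lens `B_r(0) ∩ B_r(x)` -/
def vl (x : R3) (r : ℝ) : ℝ := volume.real (ball (0 : R3) r ∩ ball x r)

/-- volume of the unit ball -/
def om : ℝ := volume.real (ball (0 : R3) 1)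

lemma finrank_R3 : Module.finrank ℝ R3 = 3 := by simp [R3]

lemma real_ball (x : R3) {r : ℝ} (hr : 0 ≤ r) : volume.real (ball x r) = r ^ 3 * om := by
  rw [measureReal_def, Measure.addHaar_ball volume x hr, finrank_R3, om, ENNReal.toReal_mul,
    ENNReal.toReal_ofReal (by positivity), measureReal_def]

lemma om_eq : om = 4 / 3 * Real.pi := by
  rw [om, measureReal_def, EuclideanSpace.volume_ball_fin_three]
  simp only [ENNReal.ofReal_one, one_pow, one_mul]
  rw [ENNReal.toReal_ofReal (by positivity)]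
  ring

lemma om_pos : 0 < om := by rw [om_eq]; positivity

lemma vl_nonneg (x : R3) (r : ℝ) : 0 ≤ vl x r := measureReal_nonneg

lemma vl_of_nonpos (x : R3) {r : ℝ} (hr : r ≤ 0) : vl x r = 0 := by
  simp [vl, ball_eq_empty.2 hr]

lemma vl_mono (x : R3) : Monotone (vl x) := by
  intro r s h
  refine measureReal_mono (inter_subset_inter (ball_subset_ball h) (ball_subset_ball h)) ?_
  exact ((measure_mono inter_subset_left).trans_lt measure_ball_lt_top).ne

lemma vl_eq_zero (x : R3) {r : ℝ} (h : 2 * r ≤ ‖x‖) : vl x r = 0 := by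
  have : Disjoint (ball (0 : R3) r) (ball x r) := by
    apply ball_disjoint_ball
    rw [dist_zero_left]; linarith
  simp [vl, this.inter_eq]

lemma vl_le (x : R3) {r : ℝ} (hr : 0 ≤ r) : vl x r ≤ om * r ^ 3 := by
  calc vl x r ≤ volume.real (ball (0 : R3) r) :=
        measureReal_mono inter_subset_left measure_ball_lt_top.ne
    _ = om * r ^ 3 := by rw [real_ball _ hr]; ring

lemma vl_smul (x : R3) (r : ℝ) {c : ℝ} (hc : 0 < c) : vl (c • x) (c * r) = c ^ 3 * vl x r := by
  have h1 : ball (0 : R3) (c * r) ∩ ball (c • x) (c * r) = c • (ball (0 : R3) r ∩ ball x r) := by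
    rw [smul_set_inter₀ hc.ne', _root_.smul_ball hc.ne', _root_.smul_ball hc.ne', smul_zero,
      Real.norm_of_nonneg hc.le]
  rw [vl, h1, measureReal_def, Measure.addHaar_smul, finrank_R3, abs_of_nonneg (by positivity), vl,
    ENNReal.toReal_mul, ENNReal.toReal_ofReal (by positivity), measureReal_def]

lemma vl_iso (e : R3 ≃ₗᵢ[ℝ] R3) (x : R3) (r : ℝ) : vl (e x) r = vl x r := by
  have h1 : e ⁻¹' (ball (0 : R3) r ∩ ball (e x) r) = ball (0 : R3) r ∩ ball x r := by
    rw [preimage_inter, LinearIsometryEquiv.preimage_ball, LinearIsometryEquiv.preimage_ball]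
    simp
  rw [vl, vl, ← h1, measureReal_def, measureReal_def,
    e.measurePreserving.measure_preimage (by measurability)]

/-- `∫ r^{-5} |B_r(0) ∩ B_r(x)| dr` -/
def Lf (x : R3) : ℝ := ∫ r in Ioi (0 : ℝ), (r ^ 5)⁻¹ * vl x r

lemma Lf_smul (x : R3) {c : ℝ} (hc : 0 < c) : Lf (c • x) = c⁻¹ * Lf x := by
  have h := integral_comp_mul_left_Ioi (fun r => (r ^ 5)⁻¹ * vl (c • x) r) 0 hc
  have h2 : ∀ r : ℝ, ((c * r) ^ 5)⁻¹ * vl (c • x) (c * r) = (c ^ 2)⁻¹ * ((r ^ 5)⁻¹ * vl x r) := by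
    intro r
    rw [vl_smul x r hc]
    by_cases hr : r = 0
    · subst hr; simp
    · field_simp
  simp only [h2, mul_zero, smul_eq_mul] at h
  rw [integral_const_mul] at h
  have h3 : Lf (c • x) = c * ((c ^ 2)⁻¹ * Lf x) := by
    unfold Lf
    rw [h]
    field_simp
  rw [h3]
  field_simp

lemma Lf_iso (e : R3 ≃ₗᵢ[ℝ] R3) (x : R3) : Lf (e x) = Lf x := by
  unfold Lf
  simp only [vl_iso]

/-- a unit vector -/
def e0 : R3 := EuclideanSpace.single 0 1

lemma norm_e0 : ‖e0‖ = 1 := by simp [e0]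

/-- the constant of the representation (its value is `π`) -/
def C0 : ℝ := Lf e0

lemma Lf_eq (x : R3) (hx : x ≠ 0) : Lf x = C0 / ‖x‖ := by
  have hn : 0 < ‖x‖ := norm_pos_iff.2 hx
  have h1 : Lf (‖x‖ • e0) = ‖x‖⁻¹ * C0 := Lf_smul _ hn
  have h2 : ‖‖x‖ • e0‖ = ‖x‖ := by rw [norm_smul, norm_e0, norm_norm, mul_one]
  have h3 := Submodule.reflection_sub h2
  have h4 : Lf x = Lf (‖x‖ • e0) := by
    rw [← Lf_iso ((Submodule.span ℝ {‖x‖ • e0 - x})ᗮ.reflection) (‖x‖ • e0), h3]
  rw [h4, h1]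
  field_simp

lemma integrableOn_Lf {x : R3} (hx : x ≠ 0) :
    IntegrableOn (fun r : ℝ => (r ^ 5)⁻¹ * vl x r) (Ioi 0) := by
  have hn : 0 < ‖x‖ := norm_pos_iff.2 hx
  have hI : IntegrableOn (fun r : ℝ => om * (r ^ (-2 : ℝ))) (Ioi (‖x‖ / 2)) :=
    (integrableOn_Ioi_rpow_of_lt (by norm_num) (by positivity)).const_mul _
  have h2 : IntegrableOn (fun r : ℝ => (r ^ 5)⁻¹ * vl x r) (Ioi (‖x‖ / 2)) := by
    refine hI.mono' ?_ ?_
    · exact (((measurable_id.pow_const 5).inv).mul (vl_mono x).measurable).aestronglyMeasurable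
    · refine (ae_restrict_iff' measurableSet_Ioi).2 (Filter.Eventually.of_forall fun r hr => ?_)
      have hr' : 0 < r := lt_trans (by positivity) hr
      rw [Real.norm_of_nonneg (mul_nonneg (by positivity) (vl_nonneg _ _))]
      calc (r ^ 5)⁻¹ * vl x r ≤ (r ^ 5)⁻¹ * (om * r ^ 3) :=
            mul_le_mul_of_nonneg_left (vl_le x hr'.le) (by positivity)
        _ = om * r ^ (-2 : ℝ) := by
            rw [Real.rpow_neg hr'.le, show (2 : ℝ) = ((2 : ℕ) : ℝ) by norm_num, Real.rpow_natCast]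
            field_simp
  have h3 : IntegrableOn (fun r : ℝ => (r ^ 5)⁻¹ * vl x r) (Ioc 0 (‖x‖ / 2)) := by
    have h0 : IntegrableOn (fun _ : ℝ => (0 : ℝ)) (Ioc 0 (‖x‖ / 2)) := integrableOn_zero
    refine h0.congr_fun ?_ measurableSet_Ioc
    intro r hr
    simp only
    rw [vl_eq_zero x (by linarith [hr.2]), mul_zero]
  have := h3.union h2
  rwa [Ioc_union_Ioi_eq_Ioi (by positivity)] at this

lemma C0_le : C0 ≤ 8 * Real.pi / 3 := by
  have hx : e0 ≠ 0 := by
    intro h; have := norm_e0; rw [h, norm_zero] at this; norm_num at this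
  have hint := integrableOn_Lf hx
  have hsplit : C0 = ∫ r in Ioi (1 / 2 : ℝ), (r ^ 5)⁻¹ * vl e0 r := by
    unfold C0 Lf
    apply setIntegral_eq_of_subset_of_forall_sdiff_eq_zero measurableSet_Ioi
      (Ioi_subset_Ioi (by norm_num))
    intro r hr
    rw [vl_eq_zero, mul_zero]
    rw [norm_e0]
    have := hr.2
    simp only [mem_Ioi, not_lt] at this
    linarith
  have hI : IntegrableOn (fun r : ℝ => om * (r ^ (-2 : ℝ))) (Ioi (1 / 2)) :=
    (integrableOn_Ioi_rpow_of_lt (by norm_num) (by norm_num)).const_mul _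
  rw [hsplit]
  calc ∫ r in Ioi (1 / 2 : ℝ), (r ^ 5)⁻¹ * vl e0 r
      ≤ ∫ r in Ioi (1 / 2 : ℝ), om * (r ^ (-2 : ℝ)) := by
        refine setIntegral_mono_on (hint.mono_set (Ioi_subset_Ioi (by norm_num))) hI
          measurableSet_Ioi ?_
        intro r hr
        have hr' : 0 < r := lt_trans (by norm_num) (mem_Ioi.1 hr)
        calc (r ^ 5)⁻¹ * vl e0 r ≤ (r ^ 5)⁻¹ * (om * r ^ 3) :=
              mul_le_mul_of_nonneg_left (vl_le _ hr'.le) (by positivity)
          _ = om * r ^ (-2 : ℝ) := by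
              rw [Real.rpow_neg hr'.le, show (2 : ℝ) = ((2 : ℕ) : ℝ) by norm_num, Real.rpow_natCast]
              field_simp
    _ = 8 * Real.pi / 3 := by
        rw [integral_const_mul, integral_Ioi_rpow_of_lt (by norm_num) (by norm_num), om_eq]
        rw [show (-2 + 1 : ℝ) = -1 by norm_num, Real.rpow_neg_one]
        norm_num
        ring

lemma C0_pos : 0 < C0 := by
  have hx : e0 ≠ 0 := by
    intro h; have := norm_e0; rw [h, norm_zero] at this; norm_num at this
  have hint := integrableOn_Lf hx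
  have h1 : 0 < vl e0 1 := by
    unfold vl
    refine ENNReal.toReal_pos ?_ ?_
    · refine (IsOpen.measure_pos volume (isOpen_ball.inter isOpen_ball) ⟨(1 / 2 : ℝ) • e0, ?_, ?_⟩).ne'
      · rw [mem_ball_zero_iff, norm_smul, norm_e0]; norm_num
      · rw [mem_ball, dist_eq_norm, show (1 / 2 : ℝ) • e0 - e0 = (-(1 / 2) : ℝ) • e0 by
          module, norm_smul, norm_e0]
        norm_num
    · exact ((measure_mono inter_subset_left).trans_lt measure_ball_lt_top).ne
  have h2 : ∫ r in Ioc (1 : ℝ) 2, (2 ^ 5 : ℝ)⁻¹ * vl e0 1 ≤ ∫ r in Ioc (1 : ℝ) 2, (r ^ 5)⁻¹ * vl e0 r := by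
    refine setIntegral_mono_on (integrableOn_const (by simp)) (hint.mono_set ?_) measurableSet_Ioc ?_
    · intro r hr; exact lt_trans one_pos hr.1
    · intro r hr
      have hr0 : 0 < r := lt_trans one_pos hr.1
      refine mul_le_mul ?_ (vl_mono _ hr.1.le) (vl_nonneg _ _) (by positivity)
      exact inv_anti₀ (by positivity) (pow_le_pow_left₀ hr0.le hr.2 5)
  have h3 : ∫ r in Ioc (1 : ℝ) 2, (r ^ 5)⁻¹ * vl e0 r ≤ C0 := by
    refine setIntegral_mono_set hint ?_ ?_
    · refine (ae_restrict_iff' measurableSet_Ioi).2 (Filter.Eventually.of_forall fun r hr => ?_)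
      exact mul_nonneg (by have := mem_Ioi.1 hr; positivity) (vl_nonneg _ _)
    · exact (show Ioc (1 : ℝ) 2 ⊆ Ioi 0 from fun r hr => lt_trans one_pos hr.1).eventuallyLE
  have h4 : 0 < ∫ r in Ioc (1 : ℝ) 2, (2 ^ 5 : ℝ)⁻¹ * vl e0 1 := by
    rw [setIntegral_const]
    simp
    norm_num
    exact h1
  linarith

end

end Vale.Agent.P370.H253
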