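import Vale.Agent.P370.H253.Coul

namespace Vale.Agent.P370.H253

open MeasureTheory Metric Set
open scoped Pointwise

noncomputable section

/-- the kernel `r^{-5} 1(|z-x|<r) 1(|z-y|<r)`, as a function of `((x,y),(z,r))` -/
def kj (q : (R3 × R3) × (R3 × ℝ)) : ℝ :=
  {q : (R3 × R3) × (R3 × ℝ) | dist q.2.1 q.1.1 < q.2.2 ∧ dist q.2.1 q.1.2 < q.2.2}.indicator
    (fun q => (q.2.2 ^ 5)⁻¹) q

lemma kj_measurable : Measurable kj := by
  unfold kj
  refine Measurable.indicator (by fun_prop) ?_
  have h1 : Measurable fun q : (R3 × R3) × (R3 × ℝ) => dist q.2.1 q.1.1 := by fun_prop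
  have h2 : Measurable fun q : (R3 × R3) × (R3 × ℝ) => dist q.2.1 q.1.2 := by fun_prop
  have h3 : Measurable fun q : (R3 × R3) × (R3 × ℝ) => q.2.2 := by fun_prop
  exact (measurableSet_lt h1 h3).inter (measurableSet_lt h2 h3)

lemma kj_eq (x y z : R3) (r : ℝ) :
    kj ((x, y), (z, r)) = (r ^ 5)⁻¹ * ((ball z r).indicator 1 x * (ball z r).indicator 1 y) := by
  unfold kj
  by_cases h1 : dist z x < r <;> by_cases h2 : dist z y < r <;>
    simp [indicator, h1, h2, dist_comm x z, dist_comm y z]

lemma kj_eq' (x y z : R3) (r : ℝ) :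
    kj ((x, y), (z, r)) = (ball x r ∩ ball y r).indicator (fun _ => (r ^ 5)⁻¹) z := by
  unfold kj
  by_cases h1 : dist z x < r <;> by_cases h2 : dist z y < r <;>
    simp [indicator, h1, h2]

lemma kj_nonneg (q : (R3 × R3) × (R3 × ℝ)) : 0 ≤ kj q := by
  unfold kj
  by_cases h : q ∈ {q : (R3 × R3) × (R3 × ℝ) | dist q.2.1 q.1.1 < q.2.2 ∧ dist q.2.1 q.1.2 < q.2.2}
  · rw [indicator_of_mem h]
    have : 0 < q.2.2 := lt_of_le_of_lt dist_nonneg h.1
    positivity
  · rw [indicator_of_notMem h]

lemma real_inter (x y : R3) (r : ℝ) : volume.real (ball x r ∩ ball y r) = vl (y - x) r := by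
  have h : (fun z => z + x) ⁻¹' (ball x r ∩ ball y r) = ball (0 : R3) r ∩ ball (y - x) r := by
    ext z
    simp only [mem_preimage, mem_inter_iff, mem_ball, dist_eq_norm, sub_zero, add_sub_cancel_right]
    rw [show z + x - y = z - (y - x) by abel]
  rw [vl, ← h, measureReal_def, measureReal_def, measure_preimage_add_right]

lemma integral_kj_z (x y : R3) (r : ℝ) :
    ∫ z, kj ((x, y), (z, r)) = (r ^ 5)⁻¹ * vl (y - x) r := by
  simp only [kj_eq']
  rw [integral_indicator (by measurability), setIntegral_const, real_inter, smul_eq_mul, mul_comm]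

lemma integrable_kj_z (x y : R3) (r : ℝ) : Integrable (fun z => kj ((x, y), (z, r))) := by
  simp only [kj_eq']
  rw [integrable_indicator_iff (by measurability)]
  exact integrableOn_const (((measure_mono inter_subset_left).trans_lt measure_ball_lt_top).ne)

lemma Lf_univ (x : R3) : ∫ r : ℝ, (r ^ 5)⁻¹ * vl x r = Lf x := by
  unfold Lf
  symm
  apply setIntegral_eq_integral_of_forall_compl_eq_zero
  intro r hr
  rw [vl_of_nonpos x (by simpa using hr), mul_zero]

lemma integrable_Lf_univ {x : R3} (hx : x ≠ 0) : Integrable (fun r : ℝ => (r ^ 5)⁻¹ * vl x r) := by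
  rw [← integrableOn_univ, ← Iic_union_Ioi (a := (0 : ℝ))]
  refine IntegrableOn.union ?_ (integrableOn_Lf hx)
  have h0 : IntegrableOn (fun _ : ℝ => (0 : ℝ)) (Iic 0) := integrableOn_zero
  refine h0.congr_fun ?_ measurableSet_Iic
  intro r hr
  simp only
  rw [vl_of_nonpos x hr, mul_zero]

lemma integrable_kj {x y : R3} (h : x ≠ y) : Integrable (fun p : R3 × ℝ => kj ((x, y), p)) := by
  have hm : AEStronglyMeasurable (fun p : R3 × ℝ => kj ((x, y), p)) (volume.prod volume) :=
    (kj_measurable.comp (measurable_const.prodMk measurable_id)).aestronglyMeasurable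
  rw [Measure.volume_eq_prod, integrable_prod_iff' hm]
  refine ⟨Filter.Eventually.of_forall fun r => integrable_kj_z x y r, ?_⟩
  simp only [Real.norm_of_nonneg (kj_nonneg _), integral_kj_z]
  exact integrable_Lf_univ (sub_ne_zero.2 h.symm)

lemma integral_kj {x y : R3} (h : x ≠ y) :
    ∫ p : R3 × ℝ, kj ((x, y), p) = C0 / ‖x - y‖ := by
  have hI := integrable_kj h
  rw [Measure.volume_eq_prod] at hI ⊢
  rw [integral_prod_symm _ hI]
  simp only [integral_kj_z]
  rw [Lf_univ, Lf_eq _ (sub_ne_zero.2 h.symm), norm_sub_rev]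

/-! ### potentials -/

lemma integrable_inv_ball (R : ℝ) :
    Integrable (fun y : R3 => (Iio R).indicator (fun t => t⁻¹) ‖y‖) := by
  rw [integrable_fun_norm_addHaar (μ := (volume : Measure R3))
    (f := fun t => (Iio R).indicator (fun t => t⁻¹) t), finrank_R3]
  have h1 : IntegrableOn (fun t : ℝ => t) (Ioo 0 R) :=
    (continuous_id.integrableOn_Icc (a := 0) (b := R)).mono_set Ioo_subset_Icc_self
  have h2 : IntegrableOn ((Ioo 0 R).indicator (fun t : ℝ => t)) (Ioi 0) :=
    (integrable_indicator_iff measurableSet_Ioo |>.2 h1).integrableOn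
  refine h2.congr_fun ?_ measurableSet_Ioi
  intro t ht
  have ht' : 0 < t := ht
  by_cases hR : t < R
  · simp only [indicator, mem_Ioo, ht', hR, and_self, if_true, mem_Iio, smul_eq_mul]
    field_simp
  · simp [indicator, hR]

lemma integral_inv_ball {R : ℝ} (hR : 0 ≤ R) :
    ∫ y : R3, (Iio R).indicator (fun t => t⁻¹) ‖y‖ = 2 * Real.pi * R ^ 2 := by
  rw [integral_fun_norm_addHaar (μ := (volume : Measure R3))
    (f := fun t => (Iio R).indicator (fun t => t⁻¹) t), finrank_R3]
  have h1 : ∫ t in Ioi (0 : ℝ), t ^ (3 - 1) • (Iio R).indicator (fun t => t⁻¹) t = R ^ 2 / 2 := by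
    have : ∫ t in Ioi (0 : ℝ), t ^ (3 - 1) • (Iio R).indicator (fun t => t⁻¹) t
        = ∫ t in Ioi (0 : ℝ), (Ioc 0 R).indicator (fun t : ℝ => t) t := by
      refine setIntegral_congr_ae measurableSet_Ioi ?_
      have hne : ∀ᵐ t : ℝ, t ≠ R := by
        have := Measure.ae_ne (volume : Measure ℝ) R
        exact this
      filter_upwards [hne] with t hne ht
      have ht' : 0 < t := ht
      by_cases hR : t < R
      · simp only [indicator, mem_Ioc, ht', hR.le, and_self, if_true, mem_Iio, hR, smul_eq_mul]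
        field_simp
      · have : ¬ t ≤ R := fun h => hR (lt_of_le_of_ne h hne)
        simp [indicator, hR, this]
    rw [this, setIntegral_indicator measurableSet_Ioc,
      inter_eq_self_of_subset_right Ioc_subset_Ioi_self, ← intervalIntegral.integral_of_le hR,
      integral_id]
    ring
  rw [h1, ← om, om_eq]
  simp only [nsmul_eq_mul, smul_eq_mul]
  push_cast
  ring

/-- integrable and bounded functions -/
structure Nice (f : R3 → ℝ) : Prop where
  int : Integrable f
  bdd : ∃ M, ∀ x, |f x| ≤ M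

lemma Nice.abs {f : R3 → ℝ} (hf : Nice f) : Nice (fun x => |f x|) :=
  ⟨hf.int.abs, by obtain ⟨M, hM⟩ := hf.bdd; exact ⟨M, fun x => by simpa using hM x⟩⟩

lemma Nice.const_mul {f : R3 → ℝ} (hf : Nice f) (c : ℝ) : Nice (fun x => c * f x) :=
  ⟨hf.int.const_mul c, by
    obtain ⟨M, hM⟩ := hf.bdd
    exact ⟨|c| * M, fun x => by rw [abs_mul]; exact mul_le_mul_of_nonneg_left (hM x) (abs_nonneg c)⟩⟩

lemma Nice.add {f g : R3 → ℝ} (hf : Nice f) (hg : Nice g) : Nice (fun x => f x + g x) :=
  ⟨hf.int.add hg.int, by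
    obtain ⟨M, hM⟩ := hf.bdd
    obtain ⟨M', hM'⟩ := hg.bdd
    exact ⟨M + M', fun x => (abs_add_le _ _).trans (add_le_add (hM x) (hM' x))⟩⟩

lemma nice_zero : Nice (fun _ => 0) := ⟨integrable_zero _ _ _, 0, fun x => by simp⟩

lemma Nice.sum {ι : Type*} (s : Finset ι) {f : ι → R3 → ℝ} (hf : ∀ i ∈ s, Nice (f i)) :
    Nice (fun x => ∑ i ∈ s, f i x) := by
  classical
  induction s using Finset.induction_on with
  | empty => simpa using nice_zero
  | insert a s ha ih =>
    simp only [Finset.sum_insert ha]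
    exact (hf a (Finset.mem_insert_self _ _)).add
      (ih fun i hi => hf i (Finset.mem_insert_of_mem hi))

/-- pointwise bound for the potential -/
lemma pot_pointwise {f : R3 → ℝ} {M R : ℝ} (hM : ∀ y, |f y| ≤ M) (hR : 0 < R) (x y : R3) :
    |f y| / ‖x - y‖ ≤ M * (Iio R).indicator (fun t => t⁻¹) ‖x - y‖ + |f y| / R := by
  have hM0 : 0 ≤ M := (abs_nonneg _).trans (hM 0)
  by_cases h : ‖x - y‖ < R
  · rw [indicator_of_mem (by exact h)]
    have : |f y| / ‖x - y‖ ≤ M * ‖x - y‖⁻¹ := by
      rw [div_eq_mul_inv]; exact mul_le_mul_of_nonneg_right (hM y) (by positivity)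
    have h2 : 0 ≤ |f y| / R := by positivity
    linarith
  · rw [indicator_of_notMem (by exact h), mul_zero, zero_add]
    exact div_le_div_of_nonneg_left (abs_nonneg _) hR (not_lt.1 h)

lemma integrable_shift (R : ℝ) (x : R3) :
    Integrable (fun y : R3 => (Iio R).indicator (fun t => t⁻¹) ‖x - y‖) := by
  have := (integrable_inv_ball R).comp_sub_left x
  exact this

lemma integral_shift {R : ℝ} (hR : 0 ≤ R) (x : R3) :
    ∫ y : R3, (Iio R).indicator (fun t => t⁻¹) ‖x - y‖ = 2 * Real.pi * R ^ 2 := by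
  rw [integral_sub_left_eq_self (fun z : R3 => (Iio R).indicator (fun t => t⁻¹) ‖z‖) volume x,
    integral_inv_ball hR]

lemma measurable_inv_norm (x : R3) : Measurable (fun y : R3 => ‖x - y‖⁻¹) := by fun_prop

lemma integrable_pot {f : R3 → ℝ} (hf : Nice f) (x : R3) :
    Integrable (fun y => |f y| / ‖x - y‖) := by
  obtain ⟨M, hM⟩ := hf.bdd
  refine Integrable.mono' (((integrable_shift 1 x).const_mul M).add (hf.int.abs.div_const 1)) ?_ ?_
  · simp only [div_eq_mul_inv]
    exact hf.int.abs.aestronglyMeasurable.mul (measurable_inv_norm x).aestronglyMeasurable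
  · refine Filter.Eventually.of_forall fun y => ?_
    rw [Real.norm_of_nonneg (by positivity)]
    exact pot_pointwise hM one_pos x y

lemma pot_le {f : R3 → ℝ} (hf : Nice f) {M R : ℝ} (hM : ∀ y, |f y| ≤ M) (hR : 0 < R) (x : R3) :
    ∫ y, |f y| / ‖x - y‖ ≤ 2 * Real.pi * M * R ^ 2 + (∫ y, |f y|) / R := by
  calc ∫ y, |f y| / ‖x - y‖
      ≤ ∫ y, (M * (Iio R).indicator (fun t => t⁻¹) ‖x - y‖ + |f y| / R) :=
        integral_mono (integrable_pot hf x)
          (((integrable_shift R x).const_mul M).add (hf.int.abs.div_const R))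
          (fun y => pot_pointwise hM hR x y)
    _ = 2 * Real.pi * M * R ^ 2 + (∫ y, |f y|) / R := by
        rw [integral_add ((integrable_shift R x).const_mul M) (hf.int.abs.div_const R),
          integral_const_mul, integral_shift hR.le, integral_div]
        ring

/-- the Coulomb form -/
def coul (f g : R3 → ℝ) : ℝ := ∫ p : R3 × R3, f p.1 * g p.2 / ‖p.1 - p.2‖

lemma aesm_coul {f g : R3 → ℝ} (hf : Nice f) (hg : Nice g) :
    AEStronglyMeasurable (fun p : R3 × R3 => f p.1 * g p.2 / ‖p.1 - p.2‖)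
      ((volume : Measure R3).prod volume) := by
  have h1 : AEStronglyMeasurable (fun p : R3 × R3 => f p.1) ((volume : Measure R3).prod volume) :=
    hf.int.aestronglyMeasurable.comp_fst
  have h2 : AEStronglyMeasurable (fun p : R3 × R3 => g p.2) ((volume : Measure R3).prod volume) :=
    hg.int.aestronglyMeasurable.comp_snd
  have h3 : Measurable (fun p : R3 × R3 => ‖p.1 - p.2‖⁻¹) := by fun_prop
  simp only [div_eq_mul_inv]
  exact (h1.mul h2).mul h3.aestronglyMeasurable

lemma integrable_coul {f g : R3 → ℝ} (hf : Nice f) (hg : Nice g) :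
    Integrable (fun p : R3 × R3 => f p.1 * g p.2 / ‖p.1 - p.2‖) := by
  have hm := aesm_coul hf hg
  rw [Measure.volume_eq_prod, integrable_prod_iff hm]
  have key : ∀ x, ∫ y, ‖f x * g y / ‖x - y‖‖ = |f x| * ∫ y, |g y| / ‖x - y‖ := by
    intro x
    rw [← integral_const_mul]
    congr 1
    ext y
    rw [norm_div, norm_mul, norm_norm, Real.norm_eq_abs, Real.norm_eq_abs]
    ring
  constructor
  · refine Filter.Eventually.of_forall fun x => ?_
    refine Integrable.mono' ((integrable_pot hg x).const_mul |f x|) ?_ ?_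
    · simp only [div_eq_mul_inv]
      exact (hg.int.aestronglyMeasurable.const_mul _).mul (measurable_inv_norm x).aestronglyMeasurable
    · refine Filter.Eventually.of_forall fun y => ?_
      rw [norm_div, norm_mul, norm_norm, Real.norm_eq_abs, Real.norm_eq_abs]
      apply le_of_eq
      ring
  · obtain ⟨M, hM⟩ := hg.bdd
    refine Integrable.mono' (hf.int.abs.mul_const (2 * Real.pi * M * 1 ^ 2 + (∫ y, |g y|) / 1)) ?_ ?_
    · exact hm.norm.integral_prod_right'
    · refine Filter.Eventually.of_forall fun x => ?_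
      rw [key, Real.norm_of_nonneg (mul_nonneg (abs_nonneg _) (integral_nonneg fun y => by positivity))]
      exact mul_le_mul_of_nonneg_left (pot_le hg hM one_pos x) (abs_nonneg _)

lemma ae_ne_diag : ∀ᵐ p : R3 × R3, p.1 ≠ p.2 := by
  have hs : MeasurableSet {p : R3 × R3 | p.1 = p.2} := measurableSet_eq_fun (by fun_prop) (by fun_prop)
  have : volume {p : R3 × R3 | p.1 = p.2} = 0 := by
    rw [Measure.volume_eq_prod, Measure.measure_prod_null hs]
    refine Filter.Eventually.of_forall fun x => ?_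
    have : Prod.mk x ⁻¹' {p : R3 × R3 | p.1 = p.2} = {x} := by
      ext y; simp [eq_comm]
    show volume (Prod.mk x ⁻¹' {p : R3 × R3 | p.1 = p.2}) = 0
    rw [this]
    simp
  rw [ae_iff]
  simpa using this

/-- `∫_{B_r(z)} f` -/
def mass (f : R3 → ℝ) (p : R3 × ℝ) : ℝ := ∫ x in ball p.1 p.2, f x

lemma mass_eq (f : R3 → ℝ) (p : R3 × ℝ) : mass f p = ∫ x, f x * (ball p.1 p.2).indicator 1 x := by
  unfold mass
  rw [← integral_indicator (by measurability)]
  congr 1
  ext x
  by_cases h : x ∈ ball p.1 p.2 <;> simp [indicator, h]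

lemma integrable_phi {f g : R3 → ℝ} (hf : Nice f) (hg : Nice g) :
    Integrable (fun q : (R3 × R3) × (R3 × ℝ) => f q.1.1 * g q.1.2 * kj q) := by
  have h1 : AEStronglyMeasurable (fun p : R3 × R3 => f p.1 * g p.2)
      ((volume : Measure R3).prod volume) :=
    hf.int.aestronglyMeasurable.comp_fst.mul hg.int.aestronglyMeasurable.comp_snd
  have hm : AEStronglyMeasurable (fun q : (R3 × R3) × (R3 × ℝ) => f q.1.1 * g q.1.2 * kj q)
      ((volume : Measure (R3 × R3)).prod volume) :=
    (AEStronglyMeasurable.comp_fst (f := fun p : R3 × R3 => f p.1 * g p.2) h1).mul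
      kj_measurable.aestronglyMeasurable
  rw [Measure.volume_eq_prod, integrable_prod_iff hm]
  have key : ∀ᵐ p : R3 × R3, ∫ y, ‖f p.1 * g p.2 * kj (p, y)‖ =
      C0 * (|f p.1| * |g p.2| / ‖p.1 - p.2‖) := by
    filter_upwards [ae_ne_diag] with p hp
    have : ∀ y, ‖f p.1 * g p.2 * kj (p, y)‖ = |f p.1| * |g p.2| * kj (p, y) := by
      intro y
      rw [norm_mul, norm_mul, Real.norm_eq_abs, Real.norm_eq_abs, Real.norm_of_nonneg (kj_nonneg _)]
    simp only [this]
    rw [integral_const_mul]
    have := integral_kj hp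
    simp only [Prod.mk.eta] at this
    rw [this]
    ring
  constructor
  · filter_upwards [ae_ne_diag] with p hp
    have := (integrable_kj hp).const_mul (f p.1 * g p.2)
    simpa using this
  · refine (Integrable.congr ?_ (key.mono fun p hp => hp.symm))
    exact (integrable_coul hf.abs hg.abs).const_mul C0

/-- **Fefferman - de la Llave representation.** -/
theorem coul_rep {f g : R3 → ℝ} (hf : Nice f) (hg : Nice g) :
    coul f g = C0⁻¹ * ∫ p : R3 × ℝ, (p.2 ^ 5)⁻¹ * (mass f p * mass g p) := by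
  have hI := integrable_phi hf hg
  have h1 : ∫ q : (R3 × R3) × (R3 × ℝ), f q.1.1 * g q.1.2 * kj q = C0 * coul f g := by
    rw [Measure.volume_eq_prod] at hI ⊢
    rw [integral_prod _ hI]
    unfold coul
    rw [← integral_const_mul]
    refine integral_congr_ae ?_
    filter_upwards [ae_ne_diag] with p hp
    rw [integral_const_mul]
    have := integral_kj hp
    simp only [Prod.mk.eta] at this
    rw [this]
    ring
  have h2 : ∫ q : (R3 × R3) × (R3 × ℝ), f q.1.1 * g q.1.2 * kj q =
      ∫ p : R3 × ℝ, (p.2 ^ 5)⁻¹ * (mass f p * mass g p) := by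
    rw [Measure.volume_eq_prod] at hI ⊢
    rw [integral_prod_symm _ hI]
    refine integral_congr_ae (Filter.Eventually.of_forall fun p => ?_)
    simp only
    have : ∀ x : R3 × R3, f x.1 * g x.2 * kj (x, p) =
        (p.2 ^ 5)⁻¹ * ((f x.1 * (ball p.1 p.2).indicator 1 x.1) *
          (g x.2 * (ball p.1 p.2).indicator 1 x.2)) := by
      intro x
      have := kj_eq x.1 x.2 p.1 p.2
      simp only [Prod.mk.eta] at this
      rw [this]; ring
    simp only [this]
    rw [integral_const_mul, Measure.volume_eq_prod,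
      integral_prod_mul (fun x => f x * (ball p.1 p.2).indicator 1 x)
        (fun x => g x * (ball p.1 p.2).indicator 1 x), ← mass_eq, ← mass_eq]
  rw [← h2, h1]
  have := C0_pos
  field_simp

lemma integrable_mass {f g : R3 → ℝ} (hf : Nice f) (hg : Nice g) :
    Integrable (fun p : R3 × ℝ => (p.2 ^ 5)⁻¹ * (mass f p * mass g p)) := by
  have hI := integrable_phi hf hg
  rw [Measure.volume_eq_prod] at hI
  have := hI.integral_prod_right
  refine this.congr (Filter.Eventually.of_forall fun p => ?_)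
  have : ∀ x : R3 × R3, f x.1 * g x.2 * kj (x, p) =
      (p.2 ^ 5)⁻¹ * ((f x.1 * (ball p.1 p.2).indicator 1 x.1) *
        (g x.2 * (ball p.1 p.2).indicator 1 x.2)) := by
    intro x
    have := kj_eq x.1 x.2 p.1 p.2
    simp only [Prod.mk.eta] at this
    rw [this]; ring
  simp only [this]
  rw [integral_const_mul, Measure.volume_eq_prod,
    integral_prod_mul (fun x => f x * (ball p.1 p.2).indicator 1 x)
      (fun x => g x * (ball p.1 p.2).indicator 1 x), ← mass_eq, ← mass_eq]

end

end Vale.Agent.P370.H253
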