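import Vale.Agent.P370.H253.Pot
import Vale.Agent.P370.H305.Blocks

/-! `DiagStmt` of `H305/Blocks.lean`. -/

namespace Vale.Agent.P370.H253

noncomputable section

theorem diagStmt : H305.DiagStmt := by
  refine ⟨3000, 0, by norm_num, fun n m i hn _ _ => ?_⟩
  rw [pow_zero, mul_one]
  exact (le_abs_self _).trans (Dm_le_pow hn m i i)

end

end Vale.Agent.P370.H253
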