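import Vale.Agent.P370.H253.RingCharge
import Vale.Agent.P370.H115.Small
import Vale.Agent.P370.H305.Iface

/-! Explicit consequences of the positivity of the charge matrix, in the notation of the interface
(`H305.Dm`, `H305.Dl`). -/

namespace Vale.Agent.P370.H253

open MeasureTheory Finset
open Vale.Agent.P370.H115

noncomputable section

/-- **(b) of R1** -/
theorem charge_stmt : ChargeStmt := chargeStmt_of_overlap H115.overlap

lemma norm_rC {n : ℕ} (hn : 2 ≤ n) (m i : ℕ) : ∫ x, rC n m i x ^ 2 = 1 := by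
  have h3 := (H115.overlap n (rang m i) (rang m i) hn).1
  rw [sub_self, Real.cos_zero] at h3
  have h4 : (0 : ℝ) ^ (n - 1) = 0 := zero_pow (by omega)
  have h5 : ∫ x, rC n m i x ^ 2 = ∫ x, ringC n (rang m i) x * ringC n (rang m i) x := by
    congr 1; ext x; unfold rC; ring
  rw [h5, h3]
  norm_num
  omega

/-- the charge matrix is bounded below, explicit version in interface notation -/
theorem Dm_lower {n m : ℕ} (hm : 2 ≤ m) (hn : 65536 * m ^ 4 ≤ n) (v : ℕ → ℝ) :
    1 / 200000000 / (m * (n : ℝ) ^ 2) * ∑ i ∈ range m, v i ^ 2 ≤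
      ∑ i ∈ range m, ∑ j ∈ range m, H305.Dm n m i j * v i * v j := by
  have hn2 : 2 ≤ n := by
    have h2 : 1 ≤ m ^ 4 := Nat.one_le_pow _ _ (by omega)
    omega
  exact charge_lower_of_norm hm hn (fun i _ => norm_rC hn2 m i) v

lemma Dm_comm {n : ℕ} (hn : 1 ≤ n) (m a b : ℕ) : H305.Dm n m a b = H305.Dm n m b a :=
  P363.R.H10.DD_comm (hnice_rho hn _) (hnice_rho hn _)

lemma Dm_diag {n : ℕ} (hn : 2 ≤ n) (m a b : ℕ) : H305.Dm n m a a = H305.Dm n m b b := by
  have h := H115.circ_stmt n (rang m a) (rang m a) (rang m b - rang m a) hn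
  rw [add_sub_cancel] at h
  exact h.symm

/-- `Δ_ab ≥ 5·10⁻⁹ / (m n²)` -/
theorem Dl_lower {n m a b : ℕ} (hm : 2 ≤ m) (hn : 65536 * m ^ 4 ≤ n) (ha : a < m) (hb : b < m)
    (hab : a ≠ b) : 1 / 200000000 / (m * (n : ℝ) ^ 2) ≤ H305.Dl n m a b := by
  have hn2 : 2 ≤ n := by
    have h2 : 1 ≤ m ^ 4 := Nat.one_le_pow _ _ (by omega)
    omega
  set v : ℕ → ℝ := fun i => (if i = a then 1 else 0) - (if i = b then 1 else 0) with hv
  have h := Dm_lower hm hn v
  have hsum : ∀ f : ℕ → ℝ, ∑ i ∈ range m, f i * v i = f a - f b := by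
    intro f
    simp only [hv, mul_sub, Finset.sum_sub_distrib, mul_ite, mul_one, mul_zero]
    rw [Finset.sum_ite_eq' (range m) a f, Finset.sum_ite_eq' (range m) b f, if_pos (mem_range.2 ha),
      if_pos (mem_range.2 hb)]
  have e1 : ∑ i ∈ range m, v i ^ 2 = 2 := by
    have : ∑ i ∈ range m, v i ^ 2 = ∑ i ∈ range m, v i * v i := by
      refine Finset.sum_congr rfl fun i _ => by ring
    rw [this, hsum]
    simp only [hv, if_true, if_neg hab, if_neg hab.symm]
    norm_num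
  have e2 : ∑ i ∈ range m, ∑ j ∈ range m, H305.Dm n m i j * v i * v j =
      2 * H305.Dl n m a b := by
    have : ∀ i ∈ range m, ∑ j ∈ range m, H305.Dm n m i j * v i * v j =
        (H305.Dm n m i a - H305.Dm n m i b) * v i := by
      intro i _
      rw [← hsum (fun j => H305.Dm n m i j), Finset.sum_mul]
      refine Finset.sum_congr rfl fun j _ => by ring
    rw [Finset.sum_congr rfl this, hsum (fun i => H305.Dm n m i a - H305.Dm n m i b)]
    unfold H305.Dl
    rw [Dm_diag hn2 m b a, Dm_comm (by omega) m b a]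
    ring
  rw [e1, e2] at h
  linarith

/-- the form needed by the program -/
theorem Dl_lower_pow : ∃ k₀ c : ℕ, ∀ n m a b : ℕ, 2 ≤ m → m ^ k₀ ≤ n → a < m → b < m → a ≠ b →
    1 / (n : ℝ) ^ c ≤ H305.Dl n m a b := by
  refine ⟨20, 5, fun n m a b hm hmn ha hb hab => ?_⟩
  have h1 : 65536 * m ^ 4 ≤ n := by
    calc 65536 * m ^ 4 = 2 ^ 16 * m ^ 4 := by norm_num
      _ ≤ m ^ 16 * m ^ 4 := Nat.mul_le_mul_right _ (Nat.pow_le_pow_left hm 16)
      _ = m ^ 20 := by ring
      _ ≤ n := hmn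
  refine le_trans ?_ (Dl_lower hm h1 ha hb hab)
  have hm0 : (0 : ℝ) < m := by positivity
  have h2 : 2 ^ 20 ≤ n := le_trans (Nat.pow_le_pow_left hm 20) hmn
  have h3 : m ≤ n := le_trans (Nat.le_self_pow (by norm_num) m) hmn
  have h2' : (2 : ℝ) ^ 20 ≤ n := by exact_mod_cast h2
  have h3' : (m : ℝ) ≤ n := by exact_mod_cast h3
  have hn0 : (0 : ℝ) < n := by linarith
  rw [div_div, div_le_div_iff₀ (by positivity) (by positivity)]
  have h4 : (200000000 : ℝ) ≤ n ^ 2 := by nlinarith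
  have h5 : (200000000 : ℝ) * (m * n ^ 2) ≤ n ^ 2 * (n * n ^ 2) :=
    mul_le_mul h4 (mul_le_mul_of_nonneg_right h3' (by positivity)) (by positivity) (by positivity)
  calc 1 * (200000000 * ((m : ℝ) * (n : ℝ) ^ 2)) ≤ (n : ℝ) ^ 2 * (n * (n : ℝ) ^ 2) := by linarith
    _ = 1 * (n : ℝ) ^ 5 := by ring

/-- the charge integrals are at most one -/
theorem Dm_abs_le_one {n m a b : ℕ} (hn : 2 ≤ n) (hm : 2 ≤ m) (ha : a < m) (hb : b < m) :
    |H305.Dm n m a b| ≤ 1 := by
  have h := (H115.small_stmt n m a a b b hn hm ha hb ha hb).2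
  have e : H305.Dm n m a b = P363.R.H10.DD (fun x => rC n m a x * rC n m a x)
      (fun x => rC n m b x * rC n m b x) := by
    unfold H305.Dm H305.rho
    congr 1
    · ext x; ring
    · ext x; ring
  rw [e]
  refine h.trans ?_
  have h2 : (n : ℝ) ^ (-(5 / 3) : ℝ) ≤ 1 / 3 := by
    have h3 : (3 : ℝ) ≤ (n : ℝ) ^ (5 / 3 : ℝ) := by
      have h4 : (2 : ℝ) ^ (5 / 3 : ℝ) ≤ (n : ℝ) ^ (5 / 3 : ℝ) :=
        Real.rpow_le_rpow (by norm_num) (by exact_mod_cast hn) (by norm_num)
      refine le_trans ?_ h4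
      have h5 : ((2 : ℝ) ^ (5 / 3 : ℝ)) ^ 3 = 32 := by
        rw [← Real.rpow_natCast, ← Real.rpow_mul (by norm_num)]
        norm_num
      by_contra hcon
      push Not at hcon
      have h6 : ((2 : ℝ) ^ (5 / 3 : ℝ)) ^ 3 < 3 ^ 3 :=
        pow_lt_pow_left₀ hcon (by positivity) (by norm_num)
      rw [h5] at h6
      norm_num at h6
    rw [Real.rpow_neg (by positivity)]
    rw [one_div]
    exact inv_anti₀ (by norm_num) h3
  linarith

end

end Vale.Agent.P370.H253
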