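import Vale.Agent.P370.H253.LB
import Vale.Agent.P370.H890.Pair
import Vale.Agent.P370.H115.Kap

/-! The lower bounds (I6) needed by the program of `ProgStmt`. -/

namespace Vale.Agent.P370.H253

open MeasureTheory
open Vale.Agent.P370.H115

noncomputable section

lemma kap_eq (n : ℕ) : H305.kap n = H98.kap n := rfl

lemma Mm_eq (n m a b : ℕ) : H305.Mm n m a b = H98.Mab n m a b := by
  unfold H305.Mm H305.rho H98.Mab H98.M4 rC
  congr 1
  ext x
  ring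

theorem Mm_lower {n : ℕ} (hn : 2 ≤ n) (m a b : ℕ) :
    1 / (100000 * (n : ℝ) ^ 9) ≤ H305.Mm n m a b := by
  rw [Mm_eq]
  exact H890.pair_stmt n m a b hn

theorem Mm_lower_pow {n : ℕ} (hn : 100000 ≤ n) (m a b : ℕ) :
    1 / (n : ℝ) ^ 10 ≤ H305.Mm n m a b := by
  refine le_trans ?_ (Mm_lower (by omega) m a b)
  have h : (100000 : ℝ) ≤ n := by exact_mod_cast hn
  have h0 : (0 : ℝ) < n := by linarith
  refine one_div_le_one_div_of_le (by positivity) ?_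
  have : (n : ℝ) ^ 10 = n * n ^ 9 := by ring
  rw [this]
  exact mul_le_mul_of_nonneg_right h (by positivity)

theorem kap_lower_pow {n : ℕ} (hn : 100 ≤ n) : 1 / (n : ℝ) ^ 7 ≤ H305.kap n := by
  rw [kap_eq]
  refine le_trans ?_ (H115.kap_stmt n (by omega)).2.1
  have h : (100 : ℝ) ≤ n := by exact_mod_cast hn
  have h0 : (0 : ℝ) < n := by linarith
  have hpi := Real.pi_pos
  refine one_div_le_one_div_of_le (by positivity) ?_
  have e : (n : ℝ) ^ 7 = n * n ^ 6 := by ring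
  rw [e]
  refine mul_le_mul_of_nonneg_right ?_ (by positivity)
  linarith [Real.pi_le_four]

theorem kap_le_one {n : ℕ} (hn : 2 ≤ n) : H305.kap n ≤ 1 := by
  rw [kap_eq]
  refine (H115.kap_stmt n hn).2.2.trans ?_
  have h : (1 : ℝ) ≤ n := by exact_mod_cast (by omega : 1 ≤ n)
  rw [div_le_one (by positivity)]
  exact one_le_pow₀ h

/-- **(I6)** -/
theorem I6 : ∃ k₀ c : ℕ, ∀ n m : ℕ, 2 ≤ m → m ^ k₀ ≤ n →
    (∀ a b : ℕ, a < m → b < m → a ≠ b → 1 / (n : ℝ) ^ c ≤ H305.Dl n m a b) ∧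
    (∀ a b : ℕ, 1 / (n : ℝ) ^ c ≤ H305.Mm n m a b) ∧
    (1 / (n : ℝ) ^ c ≤ H305.kap n ∧ H305.kap n ≤ 1) ∧
    (∀ a b : ℕ, a < m → b < m → |H305.Dm n m a b| ≤ 1) := by
  refine ⟨20, 10, fun n m hm hmn => ?_⟩
  have h1 : 65536 * m ^ 4 ≤ n := by
    calc 65536 * m ^ 4 = 2 ^ 16 * m ^ 4 := by norm_num
      _ ≤ m ^ 16 * m ^ 4 := Nat.mul_le_mul_right _ (Nat.pow_le_pow_left hm 16)
      _ = m ^ 20 := by ring
      _ ≤ n := hmn
  have h2 : 2 ^ 20 ≤ n := le_trans (Nat.pow_le_pow_left hm 20) hmn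
  have h3 : m ≤ n := le_trans (Nat.le_self_pow (by norm_num) m) hmn
  have hm0 : (0 : ℝ) < m := by positivity
  have h2' : (2 : ℝ) ^ 20 ≤ n := by exact_mod_cast h2
  have h3' : (m : ℝ) ≤ n := by exact_mod_cast h3
  have hn0 : (0 : ℝ) < n := by linarith
  have hn1 : (1 : ℝ) ≤ n := by linarith
  have hmono : ∀ c : ℕ, c ≤ 10 → 1 / (n : ℝ) ^ 10 ≤ 1 / (n : ℝ) ^ c := fun c hc =>
    one_div_le_one_div_of_le (by positivity) (pow_le_pow_right₀ hn1 hc)
  refine ⟨fun a b ha hb hab => ?_, fun a b => Mm_lower_pow (by omega) m a b,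
    ⟨(hmono 7 (by norm_num)).trans (kap_lower_pow (by omega)), kap_le_one (by omega)⟩,
    fun a b ha hb => Dm_abs_le_one (by omega) hm ha hb⟩
  refine (hmono 5 (by norm_num)).trans (le_trans ?_ (Dl_lower hm h1 ha hb hab))
  rw [div_div, div_le_div_iff₀ (by positivity) (by positivity)]
  have h4 : (200000000 : ℝ) ≤ n ^ 2 := by nlinarith
  have h5 : (200000000 : ℝ) * (m * n ^ 2) ≤ n ^ 2 * (n * n ^ 2) :=
    mul_le_mul h4 (mul_le_mul_of_nonneg_right h3' (by positivity)) (by positivity) (by positivity)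
  calc 1 * (200000000 * ((m : ℝ) * (n : ℝ) ^ 2)) ≤ (n : ℝ) ^ 2 * (n * (n : ℝ) ^ 2) := by linarith
    _ = 1 * (n : ℝ) ^ 5 := by ring

end

end Vale.Agent.P370.H253
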