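import Vale.Agent.P370.H305.Steps
import Vale.Agent.P370.H115.Small

/-! **Step ST1**: the displaced lattice realises the programmed potential. -/

namespace Vale.Agent.P370.H253

open MeasureTheory Finset
open Vale.Agent.P363.Stmt Vale.Agent.P363.R.H10 Vale.Agent.P370.H115
open Vale.Agent.P363.H849 (H1 ip)
open Vale.Agent.P370.H624 (Shell Closed Filled)
open Vale.Agent.P370.H98 (uS uT gUS gUT)
open Vale.Agent.P370.H305

noncomputable section

lemma ip_eq (f g : H1) : ip f g = ∫ x, f.1.1 x * g.1.1 x := rfl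

lemma exists_pow_le (C : ℝ) : ∃ c : ℕ, C ≤ 2 ^ c := by
  obtain ⟨c, hc⟩ := pow_unbounded_of_one_lt C (by norm_num : (1 : ℝ) < 2)
  exact ⟨c, hc.le⟩

/-- absorbing the constants -/
lemma absorb {C : ℝ} {c K1 K2 J : ℕ} (_hC0 : 0 < C) (hC : C ≤ 2 ^ c) {S τ R X : ℝ} (hS : 0 ≤ S)
    (hτ : 0 ≤ τ) (hR : 0 < R) (hX : 0 ≤ X) :
    C * (1 + ((J : ℝ) + 1) ^ K1 * (S + τ)) ^ 2 * (((J : ℝ) + 2) ^ K2 * X) / R ≤
      ((J : ℝ) + 2) ^ (c + 2 * K1 + K2) * (1 + S + τ) ^ 2 / R * X := by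
  have hJ : (0 : ℝ) ≤ J := Nat.cast_nonneg J
  have h1 : C ≤ ((J : ℝ) + 2) ^ c := hC.trans (pow_le_pow_left₀ (by norm_num) (by linarith) c)
  have hp : (1 : ℝ) ≤ ((J : ℝ) + 2) ^ K1 := one_le_pow₀ (by linarith)
  have h2 : 1 + ((J : ℝ) + 1) ^ K1 * (S + τ) ≤ ((J : ℝ) + 2) ^ K1 * (1 + S + τ) := by
    have h3 : ((J : ℝ) + 1) ^ K1 ≤ ((J : ℝ) + 2) ^ K1 :=
      pow_le_pow_left₀ (by linarith) (by linarith) K1
    have h4 : ((J : ℝ) + 1) ^ K1 * (S + τ) ≤ ((J : ℝ) + 2) ^ K1 * (S + τ) :=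
      mul_le_mul_of_nonneg_right h3 (by linarith)
    nlinarith
  have h5 : (1 + ((J : ℝ) + 1) ^ K1 * (S + τ)) ^ 2 ≤ (((J : ℝ) + 2) ^ K1 * (1 + S + τ)) ^ 2 :=
    pow_le_pow_left₀ (by positivity) h2 2
  have h6 : C * (1 + ((J : ℝ) + 1) ^ K1 * (S + τ)) ^ 2 ≤
      ((J : ℝ) + 2) ^ c * (((J : ℝ) + 2) ^ K1 * (1 + S + τ)) ^ 2 :=
    mul_le_mul h1 h5 (by positivity) (by positivity)
  have h7 : C * (1 + ((J : ℝ) + 1) ^ K1 * (S + τ)) ^ 2 * (((J : ℝ) + 2) ^ K2 * X) ≤
      ((J : ℝ) + 2) ^ c * (((J : ℝ) + 2) ^ K1 * (1 + S + τ)) ^ 2 * (((J : ℝ) + 2) ^ K2 * X) :=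
    mul_le_mul_of_nonneg_right h6 (by positivity)
  calc C * (1 + ((J : ℝ) + 1) ^ K1 * (S + τ)) ^ 2 * (((J : ℝ) + 2) ^ K2 * X) / R
      ≤ ((J : ℝ) + 2) ^ c * (((J : ℝ) + 2) ^ K1 * (1 + S + τ)) ^ 2 *
          (((J : ℝ) + 2) ^ K2 * X) / R := div_le_div_of_nonneg_right h7 hR.le
    _ = ((J : ℝ) + 2) ^ (c + 2 * K1 + K2) * (1 + S + τ) ^ 2 / R * X := by
        rw [pow_add, pow_add, mul_pow, ← pow_mul, mul_comm K1 2]
        field_simp

lemma continuous_rC (n m i : ℕ) : Continuous (rC n m i) := by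
  unfold rC; exact H115.continuous_ringC n _
lemma continuous_rS (n m i : ℕ) : Continuous (rS n m i) := by
  unfold rS; exact H115.continuous_ringS n _

lemma continuous_uT (n m : ℕ) (T : ℕ → ℕ → ℝ) : Continuous (uT n m T) := by
  unfold uT
  refine Continuous.neg (continuous_finsetSum _ fun b _ => continuous_finsetSum _ fun a _ => ?_)
  exact continuous_const.mul ((continuous_rC n m a).mul (continuous_rC n m b))

lemma continuous_uS (n m : ℕ) (S : ℝ) : Continuous (uS n m S) := by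
  unfold uS
  exact continuous_const.mul (continuous_finsetSum _ fun a _ =>
    ((continuous_rC n m a).pow 2).sub ((continuous_rS n m a).pow 2))

lemma nice_sq_sub {n : ℕ} (hn : 2 ≤ n) (a : ℝ) :
    P363.R.H10.Nice (fun x => ringC n a x ^ 2 - ringS n a x ^ 2) := by
  have h1 := H115.nice_mul (H115.nice_ringC (n := n) (by omega) a) (H115.nice_ringC (n := n) (by omega) a)
  have h2 := (H115.nice_mul (H115.nice_ringS (n := n) (by omega) a)
    (H115.nice_ringS (n := n) (by omega) a)).const_mul (-1)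
  have h3 := h1.add h2
  have e : (fun x => ringC n a x * ringC n a x + -1 * (ringS n a x * ringS n a x)) =
      fun x => ringC n a x ^ 2 - ringS n a x ^ 2 := by ext x; ring
  rw [e] at h3
  exact h3

theorem lightStmt {phiJ : ℕ → ℝ → ℝ} (hL : H198.LatticeStmt) (hP : P2Stmt) (hW : WnStmt phiJ)
    (hD : H98.DispuStmt) : LightStmt phiJ := by
  obtain ⟨C, hC0, hL⟩ := hL
  obtain ⟨K2, hP⟩ := hP
  obtain ⟨K3, hW⟩ := hW
  obtain ⟨K1, hD⟩ := hD
  obtain ⟨c, hc⟩ := exists_pow_le C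
  refine ⟨c + 2 * K1 + (K2 + K3), fun J m t S τ T y hJ hm hmJ hS hτ hT ht hy => ?_⟩
  have hn4 : 4 ≤ J + 1 := by omega
  have ht0 : (0 : ℝ) < Real.sqrt t := Real.sqrt_pos.2 (by exact_mod_cast ht)
  have hJ0 : (0 : ℝ) ≤ J := Nat.cast_nonneg J
  obtain ⟨hdisp, hT1, hS1⟩ := hD (J + 1) m S τ T hn4 hm hmJ hS hτ hT
  set s : (Fin 3 → ℤ) → R3 := fun k => y k - H198.pt (1 / (t : ℝ)) k with hs
  have hy' : ∀ k, H198.pt (1 / (t : ℝ)) k + s k = y k := fun k => by rw [hs]; simp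
  have hsk : ∀ k ∈ H198.box (t ^ 4), ‖s k + (1 / (4 * Real.pi * (t : ℝ) ^ 3)) •
      (gUS (J + 1) m S (H198.pt (1 / (t : ℝ)) k) + gUT (J + 1) m T (H198.pt (1 / (t : ℝ)) k))‖ ≤
        1 / (t : ℝ) ^ 13 := by
    intro k hk
    have h := (hy k hk).2
    rw [hs]
    simp only
    rw [sub_add]
    exact h
  have hmain := hL t ht _ _ _ hdisp s hsk
  simp only [hy'] at hmain
  have hcast : (((J + 1 : ℕ) : ℝ)) = (J : ℝ) + 1 := by push_cast; ring
  rw [hcast] at hmain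
  have hpw : ∀ K4 : ℕ, K4 ≤ K2 + K3 → ∀ X : ℝ, 0 ≤ X →
      ((J : ℝ) + 2) ^ (c + 2 * K1 + K4) * (1 + S + τ) ^ 2 / Real.sqrt t * X ≤
      ((J : ℝ) + 2) ^ (c + 2 * K1 + (K2 + K3)) * (1 + S + τ) ^ 2 / Real.sqrt t * X := by
    intro K4 hK4 X hX
    refine mul_le_mul_of_nonneg_right (div_le_div_of_nonneg_right
      (mul_le_mul_of_nonneg_right ?_ (sq_nonneg _)) ht0.le) hX
    exact pow_le_pow_right₀ (by linarith) (by omega)
  constructor
  · intro f hf g hg
    obtain ⟨L, hL1, hL2⟩ := hP J f hf g hg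
    have h := hmain _ _ _ hL1 hL2
    have hX : 0 ≤ nrm f * nrm g := mul_nonneg (Real.sqrt_nonneg _) (Real.sqrt_nonneg _)
    have h2 := (h.trans (absorb hC0 hc hS hτ ht0 hX)).trans (hpw K2 (by omega) _ hX)
    refine le_trans (le_of_eq ?_) h2
    rw [← abs_neg]
    congr 1
    unfold lightF
    rw [ip_eq]
    ring
  · obtain ⟨hw1, hw2, hw3, ⟨L, hL1, hL2⟩, hw4, -⟩ := hW (J + 1) (by omega)
    have hb : H198.Bnd (wn (J + 1)) L (((J : ℝ) + 2) ^ K3 * 1) := by
      have h0 : (((J + 1 : ℕ) : ℝ)) ^ K3 ≤ ((J : ℝ) + 2) ^ K3 * 1 := by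
        rw [hcast, mul_one]
        exact pow_le_pow_left₀ (by linarith) (by linarith) _
      exact ⟨fun x => (hL2.sup x).trans h0, hL2.mom.trans h0, hL2.lap.trans h0⟩
    have h := hmain _ _ _ hL1 hb
    have h2 := (h.trans (absorb hC0 hc hS hτ ht0 zero_le_one)).trans (hpw K3 (by omega) 1 zero_le_one)
    rw [mul_one] at h2
    refine le_trans (le_of_eq ?_) h2
    have e1 : ∑ k ∈ H198.box (t ^ 4), H198.pot (wn (J + 1)) (y k) =
        ∑ k ∈ H198.box (t ^ 4), phiJ (J + 1) ‖y k‖ :=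
      Finset.sum_congr rfl fun k hk => hw1 (y k) (hy k hk).1
    have hwi : Integrable (wn (J + 1)) := by
      have h3 := hL1.int_q
      refine h3.norm.mono' ?_ (Filter.Eventually.of_forall fun x => ?_)
      · have : Continuous (wn (J + 1)) := by
          unfold wn
          fun_prop
        exact this.aestronglyMeasurable
      · rw [norm_mul, Real.norm_of_nonneg (by positivity : (0 : ℝ) ≤ 1 + ‖x‖ ^ 4)]
        have : (1 : ℝ) ≤ 1 + ‖x‖ ^ 4 := by
          have : 0 ≤ ‖x‖ ^ 4 := by positivity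
          linarith
        nlinarith [norm_nonneg (wn (J + 1) x)]
    have iT : Integrable (fun x => uT (J + 1) m T x * wn (J + 1) x) := by
      refine hwi.bdd_mul (c := ((J + 1 : ℕ) : ℝ) ^ K1 * τ) (continuous_uT _ _ _).aestronglyMeasurable
        (Filter.Eventually.of_forall fun x => ?_)
      rw [Real.norm_eq_abs]; exact hT1 x
    have iS : Integrable (fun x => uS (J + 1) m S x * wn (J + 1) x) := by
      refine hwi.bdd_mul (c := ((J + 1 : ℕ) : ℝ) ^ K1 * S) (continuous_uS _ _ _).aestronglyMeasurable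
        (Filter.Eventually.of_forall fun x => ?_)
      rw [Real.norm_eq_abs]; exact hS1 x
    have eS : ∫ x, uS (J + 1) m S x * wn (J + 1) x = 0 := by
      have h3 : (fun x => uS (J + 1) m S x * wn (J + 1) x) = fun x => -(S / H98.kap (J + 1)) *
          ∑ i ∈ range m, (ringC (J + 1) (rang m i) x ^ 2 - ringS (J + 1) (rang m i) x ^ 2) *
            wn (J + 1) x := by
        ext x; unfold uS; rw [mul_assoc, Finset.sum_mul]; rfl
      rw [h3, integral_const_mul, integral_finsetSum]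
      · rw [Finset.sum_eq_zero fun i _ => hw4 (rang m i), mul_zero]
      · intro i _
        obtain ⟨B, hB, hb'⟩ := (nice_sq_sub (n := J + 1) (by omega) (rang m i)).bd
        refine hwi.bdd_mul (c := B)
          (nice_sq_sub (n := J + 1) (by omega) (rang m i)).meas.aestronglyMeasurable
          (Filter.Eventually.of_forall fun x => ?_)
        rw [Real.norm_eq_abs]
        refine (hb' x).trans (div_le_self hB (one_le_pow₀ ?_))
        linarith [norm_nonneg x]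
    have e2 : ∫ x, (uS (J + 1) m S x + uT (J + 1) m T x) * wn (J + 1) x =
        ∫ x, uT (J + 1) m T x * wn (J + 1) x := by
      have h3 : (fun x => (uS (J + 1) m S x + uT (J + 1) m T x) * wn (J + 1) x) =
          fun x => uS (J + 1) m S x * wn (J + 1) x + uT (J + 1) m T x * wn (J + 1) x := by
        ext x; ring
      rw [h3, integral_add iS iT, eS, zero_add]
    rw [e1, e2, hw2, hw3, mul_one]
    congr 1
    rw [hcast]
    ring

end

end Vale.Agent.P370.H253
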