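import Vale.Agent.P370.H253.Ring2
import Vale.Agent.P370.H305.Iface

/-! **Block R1c, final statements**: sup of the potential of a ring charge, and its consequences for
the Coulomb integrals of the rings. -/

namespace Vale.Agent.P370.H253

open MeasureTheory Metric Set Filter Topology
open Vale.Agent.P370.H115
open scoped Nat

noncomputable section

lemma inv_dyadic_far {r t : ℝ} (hr : 0 < r) (ht : r ≤ t) (L : ℕ) :
    t⁻¹ ≤ (∑ k ∈ Finset.range L, if t < 2 ^ (k + 1) * r then 1 / (2 ^ k * r) else 0) +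
      1 / (2 ^ L * r) := by
  induction L with
  | zero =>
    simp only [Finset.range_zero, Finset.sum_empty, zero_add, pow_zero, one_mul]
    rw [one_div]
    exact inv_anti₀ hr ht
  | succ L ih =>
    rw [Finset.sum_range_succ]
    by_cases h : t < 2 ^ (L + 1) * r
    · rw [if_pos h]
      have : (0 : ℝ) ≤ 1 / (2 ^ (L + 1) * r) := by positivity
      linarith
    · rw [if_neg h, add_zero]
      push Not at h
      have h1 : t⁻¹ ≤ 1 / (2 ^ (L + 1) * r) := by
        rw [one_div]; exact inv_anti₀ (by positivity) h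
      have h2 : 0 ≤ ∑ k ∈ Finset.range L, if t < 2 ^ (k + 1) * r then 1 / (2 ^ k * r) else 0 := by
        refine Finset.sum_nonneg fun k _ => ?_
        split_ifs
        · positivity
        · exact le_rfl
      linarith

lemma inv_dyadic {r t : ℝ} (hr : 0 < r) (L : ℕ) :
    t⁻¹ ≤ (Iio r).indicator (fun t => t⁻¹) t +
      ((∑ k ∈ Finset.range L, if t < 2 ^ (k + 1) * r then 1 / (2 ^ k * r) else 0) +
        1 / (2 ^ L * r)) := by
  by_cases h : t < r
  · rw [indicator_of_mem (by exact h)]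
    have h2 : 0 ≤ ∑ k ∈ Finset.range L, if t < 2 ^ (k + 1) * r then 1 / (2 ^ k * r) else 0 := by
      refine Finset.sum_nonneg fun k _ => ?_
      split_ifs
      · positivity
      · exact le_rfl
    have : (0 : ℝ) ≤ 1 / (2 ^ L * r) := by positivity
    linarith
  · rw [indicator_of_notMem (by exact h), zero_add]
    exact inv_dyadic_far hr (not_lt.1 h) L

/-- the potential of a charge through the masses of balls -/
theorem pot_dyadic {f : X3 → ℝ} (hf : Nice f) (h0 : ∀ x, 0 ≤ f x) {M r : ℝ} (hM : ∀ y, f y ≤ M)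
    (hr : 0 < r) (L : ℕ) (x : X3) :
    ∫ y, f y / ‖x - y‖ ≤ 2 * Real.pi * M * r ^ 2 +
      ((∑ k ∈ Finset.range L, mass f (x, 2 ^ (k + 1) * r) / (2 ^ k * r)) +
        (∫ y, f y) / (2 ^ L * r)) := by
  have hM' : ∀ y, |f y| ≤ M := fun y => by rw [abs_of_nonneg (h0 y)]; exact hM y
  have i0 : Integrable (fun y => f y / ‖x - y‖) := by
    have := integrable_pot hf x
    refine this.congr (Eventually.of_forall fun y => ?_)
    simp only
    rw [abs_of_nonneg (h0 y)]
  have i1 : Integrable (fun y => M * (Iio r).indicator (fun t => t⁻¹) ‖x - y‖) :=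
    (integrable_shift r x).const_mul M
  have i2 : ∀ k ∈ Finset.range L, Integrable (fun y =>
      (ball x (2 ^ (k + 1) * r)).indicator f y * (1 / (2 ^ k * r))) := fun k _ =>
    (hf.int.indicator measurableSet_ball).mul_const _
  have i3 : Integrable (fun y => f y * (1 / (2 ^ L * r))) := hf.int.mul_const _
  have i4 : Integrable (fun y => (∑ k ∈ Finset.range L,
      (ball x (2 ^ (k + 1) * r)).indicator f y * (1 / (2 ^ k * r))) + f y * (1 / (2 ^ L * r))) :=
    (integrable_finsetSum _ i2).add i3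
  have hpt : ∀ y, f y / ‖x - y‖ ≤ M * (Iio r).indicator (fun t => t⁻¹) ‖x - y‖ +
      ((∑ k ∈ Finset.range L, (ball x (2 ^ (k + 1) * r)).indicator f y * (1 / (2 ^ k * r))) +
        f y * (1 / (2 ^ L * r))) := by
    intro y
    have h1 := mul_le_mul_of_nonneg_left (inv_dyadic (t := ‖x - y‖) hr L) (h0 y)
    rw [div_eq_mul_inv]
    refine h1.trans ?_
    rw [mul_add, mul_add]
    refine add_le_add ?_ (add_le_add ?_ le_rfl)
    · refine mul_le_mul_of_nonneg_right (hM y) ?_
      unfold indicator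
      split_ifs
      · positivity
      · exact le_rfl
    · rw [Finset.mul_sum]
      refine Finset.sum_le_sum fun k _ => ?_
      by_cases h : y ∈ ball x (2 ^ (k + 1) * r)
      · rw [indicator_of_mem h, if_pos (by rw [← dist_eq_norm, dist_comm]; exact h)]
      · rw [indicator_of_notMem h, if_neg (by rw [← dist_eq_norm, dist_comm]; exact h)]
        simp
  calc ∫ y, f y / ‖x - y‖
      ≤ ∫ y, (M * (Iio r).indicator (fun t => t⁻¹) ‖x - y‖ +
      ((∑ k ∈ Finset.range L, (ball x (2 ^ (k + 1) * r)).indicator f y * (1 / (2 ^ k * r))) +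
        f y * (1 / (2 ^ L * r)))) := integral_mono i0 (i1.add i4) hpt
    _ = _ := by
      rw [integral_add i1 i4, integral_add (integrable_finsetSum _ i2) i3, integral_finsetSum _ i2, integral_const_mul,
        integral_shift hr.le, integral_mul_const]
      congr 1
      · ring
      · congr 1
        · refine Finset.sum_congr rfl fun k _ => ?_
          rw [integral_mul_const, integral_indicator measurableSet_ball]
          unfold mass
          ring
        · ring

/-- **the potential of a ring charge** -/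
theorem pot_ring {n : ℕ} (hn : 2 ≤ n) (a : ℝ) (x : X3) :
    ∫ y, rho n a y / ‖x - y‖ ≤ (256 * (Nat.clog 2 n : ℝ) + 2) / n ^ 2 := by
  have hn0 : (0 : ℝ) < n := by positivity
  have hn2 : (2 : ℝ) ≤ n := by exact_mod_cast hn
  set L := Nat.clog 2 n with hL
  have hL1 : (n : ℝ) ≤ 2 ^ L := by exact_mod_cast Nat.le_pow_clog (by norm_num) n
  have h := pot_dyadic (nice_rho (n := n) (by omega) a) (rho_nonneg n a) (M := 1 / (4 * (n : ℝ) ^ 5))
    (fun y => by
      have h1 := H115.sup_bound n a y hn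
      unfold rho
      nlinarith [sq_nonneg (ringS n a y)]) hn0 L x
  refine h.trans ?_
  rw [norm_rho hn a]
  have h1 : 2 * Real.pi * (1 / (4 * (n : ℝ) ^ 5)) * (n : ℝ) ^ 2 ≤ 1 / n ^ 2 := by
    have e : 2 * Real.pi * (1 / (4 * (n : ℝ) ^ 5)) * (n : ℝ) ^ 2 = Real.pi / (2 * n) / n ^ 2 := by
      field_simp; ring
    rw [e]
    refine div_le_div_of_nonneg_right ?_ (by positivity)
    rw [div_le_iff₀ (by positivity)]
    linarith [Real.pi_le_four]
  have h2 : ∑ k ∈ Finset.range L, mass (rho n a) (x, 2 ^ (k + 1) * (n : ℝ)) / (2 ^ k * n) ≤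
      256 * (L : ℝ) / n ^ 2 := by
    have h3 : ∀ k ∈ Finset.range L, mass (rho n a) (x, 2 ^ (k + 1) * (n : ℝ)) / (2 ^ k * n) ≤
        256 / n ^ 2 := by
      intro k _
      have h4 : (n : ℝ) ≤ 2 ^ (k + 1) * n := by
        have : (1 : ℝ) ≤ 2 ^ (k + 1) := one_le_pow₀ (by norm_num)
        nlinarith
      have h5 := mass_ball_le hn a x h4
      rw [div_le_iff₀ (by positivity)]
      refine h5.trans (le_of_eq ?_)
      rw [pow_succ]; ring
    refine (Finset.sum_le_sum h3).trans (le_of_eq ?_)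
    rw [Finset.sum_const, Finset.card_range, nsmul_eq_mul]
    ring
  have h6 : 1 / (2 ^ L * (n : ℝ)) ≤ 1 / n ^ 2 := by
    refine div_le_div_of_nonneg_left zero_le_one (by positivity) ?_
    nlinarith
  have h7 : (256 * (L : ℝ) + 2) / n ^ 2 = 1 / n ^ 2 + (256 * (L : ℝ) / n ^ 2 + 1 / n ^ 2) := by ring
  rw [h7]
  exact add_le_add h1 (add_le_add h2 h6)

/-- the potential at the points, as a bound of the Coulomb form -/
theorem DD_ring_le {n : ℕ} (hn : 2 ≤ n) (a : ℝ) {f : X3 → ℝ} (hf : P363.R.H10.Nice f) {A : ℝ}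
    (hA : ∫ x, |f x| ≤ A) :
    |P363.R.H10.DD f (fun x => ringC n a x ^ 2)| ≤
      A * ((256 * (Nat.clog 2 n : ℝ) + 2) / n ^ 2) := by
  have hP : (0 : ℝ) ≤ (256 * (Nat.clog 2 n : ℝ) + 2) / n ^ 2 := by positivity
  have h1 : |P363.R.H10.DD f (fun x => ringC n a x ^ 2)| ≤
      ∫ x, |f x| * ((256 * (Nat.clog 2 n : ℝ) + 2) / n ^ 2) := by
    unfold P363.R.H10.DD
    rw [← Real.norm_eq_abs]
    refine norm_integral_le_of_norm_le (hf.integrable.abs.mul_const _)
      (Eventually.of_forall fun x => ?_)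
    have h2 : ∫ y, f x * ringC n a y ^ 2 / ‖x - y‖ = f x * ∫ y, rho n a y / ‖x - y‖ := by
      rw [← integral_const_mul]; congr 1; ext y; unfold rho; ring
    rw [h2, norm_mul, Real.norm_eq_abs, Real.norm_of_nonneg (integral_nonneg fun y => by
      have := rho_nonneg n a y
      positivity)]
    exact mul_le_mul_of_nonneg_left (pot_ring hn a x) (abs_nonneg _)
  refine h1.trans ?_
  rw [integral_mul_const]
  exact mul_le_mul_of_nonneg_right hA hP

/-- the charge integrals: `D_ab ≤ (256 log₂ n + 258) / n²` -/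
theorem Dm_le {n : ℕ} (hn : 2 ≤ n) (m a b : ℕ) :
    |H305.Dm n m a b| ≤ (256 * (Nat.clog 2 n : ℝ) + 2) / n ^ 2 := by
  have h := DD_ring_le hn (rang m b) (hnice_rho (n := n) (by omega) (rang m a)) (A := 1) (by
    have : ∀ x, |rho n (rang m a) x| = rho n (rang m a) x := fun x => abs_of_nonneg (rho_nonneg _ _ _)
    simp_rw [this]
    exact (norm_rho hn _).le)
  rw [one_mul] at h
  exact h

/-- all the Coulomb integrals which are not charge-charge -/
theorem small2 {n m a c b d : ℕ} (hn : 2 ≤ n) (hm : 2 ≤ m) (ha : a < m) (hb : b < m) (hc : c < m)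
    (hd : d < m) (h : ¬ (a = c ∧ b = d)) :
    |P363.R.H10.DD (fun x => rC n m a x * rC n m c x) (fun x => rC n m b x * rC n m d x)| ≤
      15 * (m : ℝ) ^ 4 * (256 * (Nat.clog 2 n : ℝ) + 2) / (n ^ 2 * √n) := by
  have hn0 : (0 : ℝ) < n := by positivity
  have hm1 : (1 : ℝ) ≤ (m : ℝ) ^ 2 := one_le_pow₀ (by exact_mod_cast (by omega : 1 ≤ m))
  have hs : 0 < √(n : ℝ) := by positivity
  have hcl : (0 : ℝ) ≤ Nat.clog 2 n := Nat.cast_nonneg _
  set P : ℝ := 256 * (Nat.clog 2 n : ℝ) + 2 with hP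
  have hP1 : 1 ≤ P := by rw [hP]; linarith
  have hmix : ∀ a c b : ℕ, a < m → c < m → a ≠ c →
      |P363.R.H10.DD (fun x => rC n m a x * rC n m c x) (fun x => rC n m b x * rC n m b x)| ≤
        15 * (m : ℝ) ^ 4 * P / (n ^ 2 * √n) := by
    intro a c b ha hc hac
    have h1 := DD_ring_le hn (rang m b) (H115.nice_prod hn (rang m a) (rang m c))
      (H115.l1_stmt n m a c hn hm ha hc hac)
    have e : (fun x : X3 => rC n m b x * rC n m b x) = fun x => ringC n (rang m b) x ^ 2 := by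
      ext x; unfold rC; ring
    rw [e]
    refine h1.trans ?_
    have e2 : 3 * (m : ℝ) ^ 2 / √n * (P / (n : ℝ) ^ 2) = 3 * (m : ℝ) ^ 2 * P / (n ^ 2 * √n) := by
      field_simp
    rw [← hP, e2]
    refine div_le_div_of_nonneg_right ?_ (by positivity)
    refine mul_le_mul_of_nonneg_right ?_ (by linarith)
    nlinarith
  by_cases h1 : a = c
  · have h2 : b ≠ d := fun h3 => h ⟨h1, h3⟩
    have h3 : P363.R.H10.DD (fun x => rC n m a x * rC n m a x) (fun x => rC n m b x * rC n m d x) =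
        P363.R.H10.DD (fun x => rC n m b x * rC n m d x) (fun x => rC n m a x * rC n m a x) :=
      P363.R.H10.DD_comm (H115.nice_prod hn (rang m a) (rang m a))
        (H115.nice_prod hn (rang m b) (rang m d))
    rw [← h1, h3]
    exact hmix b d a hb hd h2
  · by_cases h2 : b = d
    · rw [← h2]
      exact hmix a c b ha hc h1
    · refine (H115.small_off hn hm ha hb hc hd h1 h2).trans ?_
      have e2 : 3 * (m : ℝ) ^ 2 / √n * (5 * (m : ℝ) ^ 2 / (n : ℝ) ^ 2) =
          15 * (m : ℝ) ^ 4 / (n ^ 2 * √n) := by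
        field_simp; ring
      rw [e2]
      refine div_le_div_of_nonneg_right ?_ (by positivity)
      have : 0 ≤ 15 * (m : ℝ) ^ 4 := by positivity
      nlinarith

/-! ### power form -/

lemma clog_le {n : ℕ} (hn : 2 ≤ n) : (Nat.clog 2 n : ℝ) ≤ 11 * (n : ℝ) ^ (1 / 7 : ℝ) := by
  have hn0 : (0 : ℝ) < n := by positivity
  have hn1 : (1 : ℝ) ≤ n := by exact_mod_cast (by omega : 1 ≤ n)
  set y : ℝ := (n : ℝ) ^ (1 / 7 : ℝ) with hy
  have hy1 : 1 ≤ y := Real.one_le_rpow hn1 (by norm_num)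
  have h1 : Real.log n ≤ 7 * (y - 1) := by
    have h2 : Real.log n = 7 * Real.log y := by
      rw [hy, Real.log_rpow hn0]; ring
    rw [h2]
    have := Real.log_le_sub_one_of_pos (by linarith : 0 < y)
    linarith
  set L := Nat.clog 2 n with hL
  have hL1 : 1 ≤ L := Nat.clog_pos (by norm_num) hn
  have h3 : 2 ^ (L - 1) < n := Nat.pow_pred_clog_lt_self (by norm_num) (by omega)
  have h4 : ((L : ℝ) - 1) * Real.log 2 ≤ Real.log n := by
    have h5 : Real.log ((2 : ℝ) ^ (L - 1)) ≤ Real.log n :=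
      Real.log_le_log (by positivity) (by exact_mod_cast h3.le)
    rw [Real.log_pow, Nat.cast_sub hL1] at h5
    simpa using h5
  have h6 : (0.69 : ℝ) < Real.log 2 := by linarith [Real.log_two_gt_d9]
  by_contra hcon
  push Not at hcon
  nlinarith

/-- **R1c in power form**: `D_ab ≤ 3000 n^(-13/7)` -/
theorem Dm_le_pow {n : ℕ} (hn : 2 ≤ n) (m a b : ℕ) :
    |H305.Dm n m a b| ≤ 3000 * (n : ℝ) ^ (-(13 / 7) : ℝ) := by
  have hn0 : (0 : ℝ) < n := by positivity
  have hn1 : (1 : ℝ) ≤ n := by exact_mod_cast (by omega : 1 ≤ n)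
  refine (Dm_le hn m a b).trans ?_
  have h1 := clog_le hn
  have hy1 : 1 ≤ (n : ℝ) ^ (1 / 7 : ℝ) := Real.one_le_rpow hn1 (by norm_num)
  have e : (n : ℝ) ^ (-(13 / 7) : ℝ) = (n : ℝ) ^ (1 / 7 : ℝ) / n ^ 2 := by
    rw [← Real.rpow_natCast, ← Real.rpow_sub hn0]; norm_num
  rw [e, mul_div_assoc']
  refine div_le_div_of_nonneg_right ?_ (by positivity)
  linarith

/-- the potential of a ring charge in power form -/
theorem pot_ring_pow {n : ℕ} (hn : 2 ≤ n) (a : ℝ) (x : X3) :
    ∫ y, rho n a y / ‖x - y‖ ≤ 3000 * (n : ℝ) ^ (-(13 / 7) : ℝ) := by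
  have hn0 : (0 : ℝ) < n := by positivity
  have hn1 : (1 : ℝ) ≤ n := by exact_mod_cast (by omega : 1 ≤ n)
  refine (pot_ring hn a x).trans ?_
  have h1 := clog_le hn
  have hy1 : 1 ≤ (n : ℝ) ^ (1 / 7 : ℝ) := Real.one_le_rpow hn1 (by norm_num)
  have e : (n : ℝ) ^ (-(13 / 7) : ℝ) = (n : ℝ) ^ (1 / 7 : ℝ) / n ^ 2 := by
    rw [← Real.rpow_natCast, ← Real.rpow_sub hn0]; norm_num
  rw [e, mul_div_assoc']
  refine div_le_div_of_nonneg_right ?_ (by positivity)
  linarith

/-- improved `kappa`: `≤ 45000 m⁴ n^(-33/14)` -/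
theorem small2_pow {n m a c b d : ℕ} (hn : 2 ≤ n) (hm : 2 ≤ m) (ha : a < m) (hb : b < m)
    (hc : c < m) (hd : d < m) (h : ¬ (a = c ∧ b = d)) :
    |P363.R.H10.DD (fun x => rC n m a x * rC n m c x) (fun x => rC n m b x * rC n m d x)| ≤
      45000 * (m : ℝ) ^ 4 * (n : ℝ) ^ (-(33 / 14) : ℝ) := by
  have hn0 : (0 : ℝ) < n := by positivity
  have hn1 : (1 : ℝ) ≤ n := by exact_mod_cast (by omega : 1 ≤ n)
  refine (small2 hn hm ha hb hc hd h).trans ?_
  have h1 := clog_le hn
  have hy1 : 1 ≤ (n : ℝ) ^ (1 / 7 : ℝ) := Real.one_le_rpow hn1 (by norm_num)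
  have e : (n : ℝ) ^ (-(33 / 14) : ℝ) = (n : ℝ) ^ (1 / 7 : ℝ) / (n ^ 2 * √n) := by
    rw [Real.sqrt_eq_rpow, ← Real.rpow_natCast, ← Real.rpow_add hn0, ← Real.rpow_sub hn0]; norm_num
  rw [e, mul_div_assoc']
  refine div_le_div_of_nonneg_right ?_ (by positivity)
  have h2 : 256 * (Nat.clog 2 n : ℝ) + 2 ≤ 3000 * (n : ℝ) ^ (1 / 7 : ℝ) := by linarith
  calc 15 * (m : ℝ) ^ 4 * (256 * (Nat.clog 2 n : ℝ) + 2)
      ≤ 15 * (m : ℝ) ^ 4 * (3000 * (n : ℝ) ^ (1 / 7 : ℝ)) :=
        mul_le_mul_of_nonneg_left h2 (by positivity)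
    _ = 45000 * (m : ℝ) ^ 4 * (n : ℝ) ^ (1 / 7 : ℝ) := by ring

end

end Vale.Agent.P370.H253
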