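import Vale.Agent.P370.H253.RingMom
import Vale.Agent.P370.H253.Coul3

/-! **Block R1b: the charge matrix of the rings is strictly positive.** -/

namespace Vale.Agent.P370.H253

open MeasureTheory Metric Set Filter Topology
open Vale.Agent.P370.H115
open scoped Nat

noncomputable section

/-! ### rotation about the pole -/

lemma pco_add (a : ℝ) (x y : X3) : pco a (x + y) = pco a x + pco a y := by
  simp [pco]; ring

lemma wco_add (a : ℝ) (x y : X3) : wco a (x + y) = wco a x + wco a y := by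
  simp [wco]; ring

lemma wco_smul (a c : ℝ) (x : X3) : wco a (c • x) = c * wco a x := by
  simp [wco]; ring

lemma pco_sub (a : ℝ) (x y : X3) : pco a (x - y) = pco a x - pco a y := by
  simp [pco]; ring

lemma zet_sub (a : ℝ) (x y : X3) : zet a (x - y) = zet a x - zet a y := by
  apply Complex.ext
  · simp [zet]
  · simp [zet]; ring

/-- rotation about the pole `p_a` by the angle `β`, as a function -/
def rotF (a β : ℝ) (x : X3) : X3 :=
  !₂[Real.cos a * pco a x - Real.sin a * (Real.sin β * x 2 + Real.cos β * wco a x),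
    Real.sin a * pco a x + Real.cos a * (Real.sin β * x 2 + Real.cos β * wco a x),
    Real.cos β * x 2 - Real.sin β * wco a x]

lemma rotF_0 (a β : ℝ) (x : X3) : rotF a β x 0 =
    Real.cos a * pco a x - Real.sin a * (Real.sin β * x 2 + Real.cos β * wco a x) := by
  simp [rotF]
lemma rotF_1 (a β : ℝ) (x : X3) : rotF a β x 1 =
    Real.sin a * pco a x + Real.cos a * (Real.sin β * x 2 + Real.cos β * wco a x) := by
  simp [rotF]
lemma rotF_2 (a β : ℝ) (x : X3) : rotF a β x 2 =
    Real.cos β * x 2 - Real.sin β * wco a x := by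
  simp [rotF]

lemma pco_rotF (a β : ℝ) (x : X3) : pco a (rotF a β x) = pco a x := by
  rw [pco, rotF_0, rotF_1]
  have := Real.sin_sq_add_cos_sq a
  linear_combination pco a x * this

lemma wco_rotF (a β : ℝ) (x : X3) :
    wco a (rotF a β x) = Real.sin β * x 2 + Real.cos β * wco a x := by
  rw [wco, rotF_0, rotF_1]
  have := Real.sin_sq_add_cos_sq a
  linear_combination (Real.sin β * x 2 + Real.cos β * wco a x) * this

lemma zet_rotF (a β : ℝ) (x : X3) :
    zet a (rotF a β x) = Complex.exp (β * Complex.I) * zet a x := by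
  apply Complex.ext
  · rw [Complex.mul_re, Complex.exp_ofReal_mul_I_re, Complex.exp_ofReal_mul_I_im, zet_re, zet_re,
      zet_im, rotF_2]
  · rw [Complex.mul_im, Complex.exp_ofReal_mul_I_re, Complex.exp_ofReal_mul_I_im, zet_im, zet_re,
      zet_im, wco_rotF]
    ring

lemma norm_rotF (a β : ℝ) (x : X3) : ‖rotF a β x‖ = ‖x‖ := by
  have h1 := norm_decomp a (rotF a β x)
  rw [pco_rotF, zet_rotF, norm_mul, Complex.norm_exp_ofReal_mul_I, one_mul, ← norm_decomp] at h1
  exact (sq_eq_sq₀ (norm_nonneg _) (norm_nonneg _)).1 h1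

/-- rotation about the pole, as an isometry -/
def rotI (a β : ℝ) : X3 ≃ₗᵢ[ℝ] X3 :=
  LinearIsometry.toLinearIsometryEquiv
    ({ toFun := rotF a β
       map_add' := by
        intro x y
        ext i
        fin_cases i
        · show rotF a β (x + y) 0 = rotF a β x 0 + rotF a β y 0
          rw [rotF_0, rotF_0, rotF_0, pco_add, wco_add]
          simp only [PiLp.add_apply]
          ring
        · show rotF a β (x + y) 1 = rotF a β x 1 + rotF a β y 1
          rw [rotF_1, rotF_1, rotF_1, pco_add, wco_add]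
          simp only [PiLp.add_apply]
          ring
        · show rotF a β (x + y) 2 = rotF a β x 2 + rotF a β y 2
          rw [rotF_2, rotF_2, rotF_2, wco_add]
          simp only [PiLp.add_apply]
          ring
       map_smul' := by
        intro c x
        ext i
        fin_cases i
        · show rotF a β (c • x) 0 = c * rotF a β x 0
          rw [rotF_0, rotF_0, pco_smul, wco_smul]
          simp only [PiLp.smul_apply, smul_eq_mul]
          ring
        · show rotF a β (c • x) 1 = c * rotF a β x 1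
          rw [rotF_1, rotF_1, pco_smul, wco_smul]
          simp only [PiLp.smul_apply, smul_eq_mul]
          ring
        · show rotF a β (c • x) 2 = c * rotF a β x 2
          rw [rotF_2, rotF_2, wco_smul]
          simp only [PiLp.smul_apply, smul_eq_mul]
          ring
       norm_map' := norm_rotF a β } : X3 →ₗᵢ[ℝ] X3) rfl

lemma rotI_apply (a β : ℝ) (x : X3) : rotI a β x = rotF a β x := rfl

lemma hh_rot {n : ℕ} (a : ℝ) {β : ℝ} (k : ℕ) (hβ : β * ((n - 1 : ℕ) : ℝ) = k * Real.pi) (x : X3) :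
    hh n a (rotI a β x) = hh n a x := by
  unfold hh
  rw [rotI_apply, zet_rotF, mul_pow, ← Complex.exp_nat_mul]
  have h1 : ((n - 1 : ℕ) : ℂ) * (β * Complex.I) = ((k * Real.pi : ℝ) : ℂ) * Complex.I := by
    rw [← hβ]; push_cast; ring
  rw [h1, Complex.mul_re, Complex.exp_ofReal_mul_I_re, Complex.exp_ofReal_mul_I_im,
    Real.sin_nat_mul_pi, zero_mul, sub_zero, mul_pow]
  have h2 : Real.cos (k * Real.pi) ^ 2 = 1 := by
    have := Real.sin_sq_add_cos_sq (k * Real.pi)
    rw [Real.sin_nat_mul_pi] at this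
    simpa using this
  rw [h2, one_mul]

/-! ### the ring charge -/

/-- the charge density of the ring -/
def rho (n : ℕ) (a : ℝ) (x : X3) : ℝ := ringC n a x ^ 2

lemma rho_eq (n : ℕ) (a : ℝ) (x : X3) :
    rho n a x = cn n ^ 2 * (hh n a x * Real.exp (-(2 / n) * ‖x‖)) := ringC_sq n a x

lemma rho_nonneg (n : ℕ) (a : ℝ) (x : X3) : 0 ≤ rho n a x := sq_nonneg _

lemma rho_rot {n : ℕ} (a : ℝ) {β : ℝ} (k : ℕ) (hβ : β * ((n - 1 : ℕ) : ℝ) = k * Real.pi) (x : X3) :
    rho n a (rotI a β x) = rho n a x := by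
  rw [rho_eq, rho_eq, hh_rot a k hβ, (rotI a β).norm_map]

lemma hnice_rho {n : ℕ} (hn : 1 ≤ n) (a : ℝ) : P363.R.H10.Nice (rho n a) := by
  have := (nice_mul_hh hn a 0 (q := fun _ => 1) continuous_const zero_le_one
    (fun x => by simp)).const_mul (cn n ^ 2)
  refine ⟨?_, ?_⟩
  · convert this.meas using 1
    ext x; rw [rho_eq]; ring
  · obtain ⟨C, hC, hb⟩ := this.bd
    refine ⟨C, hC, fun x => ?_⟩
    have h1 := hb x
    rw [rho_eq]
    simpa using h1

lemma nice_of_hnice {f : X3 → ℝ} (h : P363.R.H10.Nice f) : Nice f := by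
  refine ⟨h.integrable, ?_⟩
  obtain ⟨C, hC, hb⟩ := h.bd
  refine ⟨C, fun x => (hb x).trans ?_⟩
  apply div_le_self hC
  apply one_le_pow₀
  linarith [norm_nonneg x]

lemma nice_rho {n : ℕ} (hn : 1 ≤ n) (a : ℝ) : Nice (rho n a) := nice_of_hnice (hnice_rho hn a)

lemma integral_pow_rho {n : ℕ} (a : ℝ) (k : ℕ) :
    ∫ x, ‖x‖ ^ k * rho n a x = cn n ^ 2 * Mk n a k := by
  unfold Mk
  rw [← integral_const_mul]
  congr 1; ext x; rw [rho_eq]; ring

lemma integrable_q_rho {n : ℕ} (hn : 1 ≤ n) (a : ℝ) (k : ℕ) {q : X3 → ℝ} (hq : Continuous q)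
    {C : ℝ} (hC : 0 ≤ C) (hb : ∀ x, |q x| ≤ C * (1 + ‖x‖) ^ k) :
    Integrable (fun x => q x * rho n a x) := by
  refine ((nice_mul_hh hn a k hq hC hb).integrable.const_mul (cn n ^ 2)).congr
    (Eventually.of_forall fun x => ?_)
  simp only
  rw [rho_eq]; ring

lemma continuous_pco (a : ℝ) : Continuous (pco a) := by unfold pco; fun_prop

lemma integrable_pow_rho {n : ℕ} (hn : 1 ≤ n) (a : ℝ) (k : ℕ) :
    Integrable (fun x => ‖x‖ ^ k * rho n a x) :=
  integrable_q_rho hn a k (by fun_prop) zero_le_one (norm_pow_le k)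

lemma integrable_pco_rho {n : ℕ} (hn : 1 ≤ n) (a : ℝ) :
    Integrable (fun x => pco a x ^ 2 * rho n a x) := by
  refine integrable_q_rho hn a 2 (C := 1) ((continuous_pco a).pow 2) zero_le_one fun x => ?_
  rw [abs_pow, one_mul]
  exact pow_le_pow_left₀ (abs_nonneg _) ((abs_pco_le a x).trans (by linarith)) 2

/-- normalisation -/
lemma norm_of_integral {n : ℕ} {a : ℝ} (h : ∫ x, rho n a x = 1) : cn n ^ 2 * Mk n a 0 = 1 := by
  rw [← integral_pow_rho, ← h]
  congr 1; ext x; simp

/-- the second moment along the pole -/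
lemma moment_pco {n : ℕ} (hn : 1 ≤ n) {a : ℝ} (h : ∫ x, rho n a x = 1) :
    ∫ x, pco a x ^ 2 * rho n a x = n ^ 2 * (n + 1) / 2 := by
  have h1 : ∫ x, pco a x ^ 2 * rho n a x = cn n ^ 2 *
      ∫ x : X3, pco a x ^ 2 * hh n a x * Real.exp (-(2 / n) * ‖x‖) := by
    rw [← integral_const_mul]
    congr 1; ext x; rw [rho_eq]; ring
  rw [h1, pole_moment hn]
  linear_combination (n ^ 2 * (n + 1) / 2 : ℝ) * norm_of_integral h

/-- the radial variance -/
lemma moment_rad {n : ℕ} (hn : 1 ≤ n) {a : ℝ} (h : ∫ x, rho n a x = 1) :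
    ∫ x, (‖x‖ - n ^ 2) ^ 2 * rho n a x = n ^ 2 * (n + 1) / 2 := by
  have h1 : ∫ x, (‖x‖ - (n : ℝ) ^ 2) ^ 2 * rho n a x =
      (∫ x, ‖x‖ ^ 2 * rho n a x) - 2 * n ^ 2 * (∫ x, ‖x‖ ^ 1 * rho n a x) +
        n ^ 4 * ∫ x, ‖x‖ ^ 0 * rho n a x := by
    have i12 : Integrable (fun x => ‖x‖ ^ 2 * rho n a x - 2 * n ^ 2 * (‖x‖ ^ 1 * rho n a x)) :=
      (integrable_pow_rho hn a 2).sub ((integrable_pow_rho hn a 1).const_mul _)
    rw [← integral_const_mul, ← integral_const_mul,
      ← integral_sub (integrable_pow_rho hn a 2) ((integrable_pow_rho hn a 1).const_mul _),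
      ← integral_add i12 ((integrable_pow_rho hn a 0).const_mul _)]
    congr 1; ext x
    ring
  rw [h1, integral_pow_rho, integral_pow_rho, integral_pow_rho, Mk_one hn, Mk_two hn]
  linear_combination (n ^ 2 * (n + 1) / 2 : ℝ) * norm_of_integral h

/-- the marked point of the ring -/
def zz (n : ℕ) (a : ℝ) : X3 := ((n : ℝ) ^ 2) • wvec a

lemma pco_zz (n : ℕ) (a b : ℝ) : pco b (zz n a) = n ^ 2 * Real.sin (b - a) := by
  rw [zz, pco_smul, pco, wvec, Real.sin_sub]
  simp
  ring_nf
  simp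

lemma zet_zz (n : ℕ) (a : ℝ) : zet a (zz n a) = (((n : ℝ) ^ 2 : ℝ) : ℂ) * Complex.I := by
  rw [zz, zet_smul]
  congr 1
  apply Complex.ext
  · simp [zet, wvec]
  · have := Real.sin_sq_add_cos_sq a
    simp [zet, wvec]
    linear_combination this

/-- **covering**: every point of the thick ring is moved close to `zz` by one of the rotations -/
lemma cover {n : ℕ} {a t β : ℝ} {K : ℕ} (hβ : 0 < β) (hK : 2 * Real.pi ≤ K * β) {x : X3}
    (h1 : |pco a x| ≤ t) (h2 : |‖x‖ - n ^ 2| ≤ t) :
    ∃ k < K, dist (rotI a (k * β) x) (zz n a) ≤ 3 * t + n ^ 2 * β := by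
  set θ := (zet a x).arg with hθ
  set u := toIcoMod Real.two_pi_pos 0 (Real.pi / 2 - θ) with hu
  have hu0 : 0 ≤ u := (toIcoMod_mem_Ico Real.two_pi_pos 0 (Real.pi / 2 - θ)).1
  have hu1 : u < 2 * Real.pi := by
    have := (toIcoMod_mem_Ico Real.two_pi_pos 0 (Real.pi / 2 - θ)).2
    simpa using this
  obtain ⟨N, hN⟩ : ∃ N : ℤ, u = Real.pi / 2 - θ - N * (2 * Real.pi) := by
    refine ⟨toIcoDiv Real.two_pi_pos 0 (Real.pi / 2 - θ), ?_⟩
    rw [hu, toIcoMod, zsmul_eq_mul]
  set k := ⌊u / β⌋₊ with hk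
  have hk1 : (k : ℝ) * β ≤ u := by
    have := Nat.floor_le (div_nonneg hu0 hβ.le)
    rwa [le_div_iff₀ hβ] at this
  have hk2 : u < (k + 1 : ℝ) * β := by
    have := Nat.lt_floor_add_one (u / β)
    rwa [div_lt_iff₀ hβ] at this
  refine ⟨k, ?_, ?_⟩
  · have : (k : ℝ) * β < K * β := by linarith
    exact_mod_cast lt_of_mul_lt_mul_right this hβ.le
  · set y := rotI a (k * β) x - zz n a with hy
    rw [dist_eq_norm, ← hy]
    have hp : pco a y = pco a x := by
      rw [hy, pco_sub, rotI_apply, pco_rotF, pco_zz]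
      simp
    have hzet : zet a x = (‖zet a x‖ : ℂ) * Complex.exp (θ * Complex.I) := by
      rw [hθ]; exact (Complex.norm_mul_exp_arg_mul_I _).symm
    have hrho : |‖zet a x‖ - n ^ 2| ≤ 2 * t := by
      have e1 := norm_decomp a x
      have e2 := norm_zet_le a x
      have e3 : ‖x‖ - ‖zet a x‖ ≤ |pco a x| := by
        have := abs_pco_le a x
        have e4 : (‖x‖ - ‖zet a x‖) * (‖x‖ + ‖zet a x‖) = |pco a x| ^ 2 := by
          rw [sq_abs]; nlinarith
        by_contra hcon
        push Not at hcon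
        have e5 : 0 ≤ |pco a x| := abs_nonneg _
        have e6 : 0 ≤ ‖zet a x‖ := norm_nonneg _
        nlinarith
      rw [abs_le] at h2 ⊢
      constructor <;> linarith
    have hz : ‖zet a y‖ ≤ 2 * t + n ^ 2 * β := by
      rw [hy, zet_sub, rotI_apply, zet_rotF, zet_zz]
      set ph : ℝ := k * β + θ with hph
      have e1 : Complex.exp ((k * β : ℝ) * Complex.I) * zet a x =
          (‖zet a x‖ : ℂ) * Complex.exp (ph * Complex.I) := by
        rw [hzet]
        rw [mul_left_comm, ← Complex.exp_add]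
        simp only [Complex.norm_mul, Complex.norm_real, norm_norm, Complex.norm_exp_ofReal_mul_I,
          mul_one]
        congr 2
        rw [hph]; push_cast; ring
      have e2 : Complex.exp (ph * Complex.I) - Complex.I =
          Complex.I * (Complex.exp (Complex.I * ((k * β - u : ℝ) : ℂ)) - 1) := by
        have e3 : Complex.exp (ph * Complex.I) =
            Complex.I * Complex.exp (Complex.I * ((k * β - u : ℝ) : ℂ)) := by
          have e4 : (ph * Complex.I : ℂ) = (Real.pi / 2 : ℂ) * Complex.I +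
              Complex.I * ((k * β - u : ℝ) : ℂ) + ((-N : ℤ) : ℂ) * (2 * Real.pi * Complex.I) := by
            rw [hN, hph]; push_cast; ring
          rw [e4, Complex.exp_add, Complex.exp_add, Complex.exp_int_mul_two_pi_mul_I, mul_one,
            Complex.exp_pi_div_two_mul_I]
        rw [e3]; ring
      have e5 : ‖Complex.exp (ph * Complex.I) - Complex.I‖ ≤ β := by
        rw [e2, norm_mul, Complex.norm_I, one_mul]
        refine (Real.norm_exp_I_mul_ofReal_sub_one_le).trans ?_
        rw [Real.norm_eq_abs, abs_le]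
        constructor <;> linarith
      have hcast : Complex.exp (((k : ℝ) * β : ℝ) * Complex.I) * zet a x -
          (((n : ℝ) ^ 2 : ℝ) : ℂ) * Complex.I =
          ((‖zet a x‖ - n ^ 2 : ℝ) : ℂ) * Complex.exp (ph * Complex.I) +
            (((n : ℝ) ^ 2 : ℝ) : ℂ) * (Complex.exp (ph * Complex.I) - Complex.I) := by
        rw [e1]; push_cast; ring
      rw [hcast]
      refine (norm_add_le _ _).trans ?_
      rw [norm_mul, norm_mul, Complex.norm_exp_ofReal_mul_I, mul_one, Complex.norm_real,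
        Complex.norm_real, Real.norm_eq_abs, Real.norm_of_nonneg (by positivity)]
      exact add_le_add hrho (mul_le_mul_of_nonneg_left e5 (by positivity))
    have hfin := norm_decomp a y
    rw [hp] at hfin
    have e7 : 0 ≤ ‖zet a y‖ := norm_nonneg _
    have e8 : 0 ≤ |pco a x| := abs_nonneg _
    have e9 : ‖y‖ ≤ |pco a x| + ‖zet a y‖ := by
      refine (sq_le_sq₀ (norm_nonneg _) (by positivity)).1 ?_
      rw [hfin, ← sq_abs (pco a x)]
      nlinarith
    linarith

lemma integral_rot (a β : ℝ) (f : X3 → ℝ) : ∫ x, f (rotI a β x) = ∫ x, f x := by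
  have hT : MeasurePreserving (rotI a β) volume volume := (rotI a β).measurePreserving
  have he : MeasurableEmbedding (rotI a β) := (rotI a β).toHomeomorph.measurableEmbedding
  exact hT.integral_comp he f

/-- the mass of the ring near its marked point -/
lemma ring_mass_lower {n : ℕ} (hn : 2 ≤ n) {a : ℝ} (hnorm : ∫ x, rho n a x = 1)
    {t R : ℝ} (ht : 0 < t) {l K : ℕ} (hl : 1 ≤ l) (hK : 2 * (n - 1) ≤ K * l)
    (hR : 3 * t + n ^ 2 * (l * Real.pi / ((n - 1 : ℕ) : ℝ)) < R) :
    1 - n ^ 2 * (n + 1) / t ^ 2 ≤ K * mass (rho n a) (zz n a, R) := by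
  have hn1 : 1 ≤ n := by omega
  have hJ : (0 : ℝ) < ((n - 1 : ℕ) : ℝ) := by
    have : 0 < n - 1 := by omega
    exact_mod_cast this
  set β : ℝ := l * Real.pi / ((n - 1 : ℕ) : ℝ) with hβ
  have hl0 : (0 : ℝ) < l := by exact_mod_cast hl
  have hβ0 : 0 < β := by rw [hβ]; have := Real.pi_pos; positivity
  have hKβ : 2 * Real.pi ≤ K * β := by
    rw [hβ, mul_div_assoc', le_div_iff₀ hJ]
    have h1 : (2 * ((n - 1 : ℕ) : ℝ)) ≤ K * l := by exact_mod_cast hK
    nlinarith [Real.pi_pos]
  have hpt : ∀ x : X3, (1 - (pco a x ^ 2 + (‖x‖ - n ^ 2) ^ 2) / t ^ 2) * rho n a x ≤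
      ∑ k ∈ Finset.range K, (ball (zz n a) R).indicator (rho n a) (rotI a (k * β) x) := by
    intro x
    have hnn : ∀ k ∈ Finset.range K,
        0 ≤ (ball (zz n a) R).indicator (rho n a) (rotI a (k * β) x) := fun k _ =>
      indicator_nonneg (fun y _ => rho_nonneg n a y) _
    by_cases hA : |pco a x| ≤ t ∧ |‖x‖ - n ^ 2| ≤ t
    · obtain ⟨k, hk, hd⟩ := cover hβ0 hKβ hA.1 hA.2
      have h1 : rotI a (k * β) x ∈ ball (zz n a) R := lt_of_le_of_lt hd hR
      have h2 : (ball (zz n a) R).indicator (rho n a) (rotI a (k * β) x) = rho n a x := by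
        rw [indicator_of_mem h1]
        apply rho_rot a (k * l)
        rw [hβ]; field_simp
        push_cast; ring
      calc (1 - (pco a x ^ 2 + (‖x‖ - n ^ 2) ^ 2) / t ^ 2) * rho n a x ≤ 1 * rho n a x := by
            refine mul_le_mul_of_nonneg_right ?_ (rho_nonneg n a x)
            have : 0 ≤ (pco a x ^ 2 + (‖x‖ - n ^ 2) ^ 2) / t ^ 2 := by positivity
            linarith
        _ = (ball (zz n a) R).indicator (rho n a) (rotI a (k * β) x) := by rw [h2, one_mul]
        _ ≤ _ := Finset.single_le_sum hnn (Finset.mem_range.2 hk)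
    · have h1 : t ^ 2 ≤ pco a x ^ 2 + (‖x‖ - n ^ 2) ^ 2 := by
        rw [not_and_or, not_le, not_le] at hA
        rcases hA with h | h
        · have : t ^ 2 ≤ |pco a x| ^ 2 := pow_le_pow_left₀ ht.le h.le 2
          rw [sq_abs] at this
          nlinarith [sq_nonneg (‖x‖ - (n : ℝ) ^ 2)]
        · have : t ^ 2 ≤ |‖x‖ - n ^ 2| ^ 2 := pow_le_pow_left₀ ht.le h.le 2
          rw [sq_abs] at this
          nlinarith [sq_nonneg (pco a x)]
      have h2 : 1 ≤ (pco a x ^ 2 + (‖x‖ - n ^ 2) ^ 2) / t ^ 2 := by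
        rw [le_div_iff₀ (by positivity)]; linarith
      have h3 : (1 - (pco a x ^ 2 + (‖x‖ - n ^ 2) ^ 2) / t ^ 2) * rho n a x ≤ 0 :=
        mul_nonpos_of_nonpos_of_nonneg (by linarith) (rho_nonneg n a x)
      exact h3.trans (Finset.sum_nonneg hnn)
  have hrad : Integrable (fun x : X3 => (‖x‖ - (n : ℝ) ^ 2) ^ 2 * rho n a x) := by
    refine integrable_q_rho hn1 a 2 (C := (n : ℝ) ^ 4) (by fun_prop) (by positivity) fun x => ?_
    rw [abs_pow, show (n : ℝ) ^ 4 * (1 + ‖x‖) ^ 2 = ((n : ℝ) ^ 2 * (1 + ‖x‖)) ^ 2 by ring]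
    refine pow_le_pow_left₀ (abs_nonneg _) ?_ 2
    have h1 : (1 : ℝ) ≤ (n : ℝ) ^ 2 := one_le_pow₀ (by exact_mod_cast hn1)
    rw [abs_le]
    constructor <;> nlinarith [norm_nonneg x, mul_le_mul_of_nonneg_right h1 (norm_nonneg x)]
  have hint0 : Integrable (rho n a) := (nice_rho hn1 a).int
  have i2 : Integrable (fun x => pco a x ^ 2 * rho n a x + (‖x‖ - (n : ℝ) ^ 2) ^ 2 * rho n a x) :=
    (integrable_pco_rho hn1 a).add hrad
  have hL : ∫ x, (1 - (pco a x ^ 2 + (‖x‖ - (n : ℝ) ^ 2) ^ 2) / t ^ 2) * rho n a x =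
      1 - n ^ 2 * (n + 1) / t ^ 2 := by
    have e : (fun x : X3 => (1 - (pco a x ^ 2 + (‖x‖ - (n : ℝ) ^ 2) ^ 2) / t ^ 2) * rho n a x) =
        fun x => rho n a x - (pco a x ^ 2 * rho n a x + (‖x‖ - (n : ℝ) ^ 2) ^ 2 * rho n a x) *
          (t ^ 2)⁻¹ := by
      ext x; field_simp
    rw [e, integral_sub hint0 (i2.mul_const _), integral_mul_const,
      integral_add (integrable_pco_rho hn1 a) hrad, moment_pco hn1 hnorm, moment_rad hn1 hnorm,
      hnorm]
    field_simp
    ring
  have hintK : ∀ k ∈ Finset.range K, Integrable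
      (fun x => (ball (zz n a) R).indicator (rho n a) (rotI a (k * β) x)) := by
    intro k _
    have h1 : Integrable ((ball (zz n a) R).indicator (rho n a)) :=
      hint0.indicator measurableSet_ball
    exact (rotI a (k * β)).measurePreserving.integrable_comp_of_integrable h1
  calc 1 - n ^ 2 * (n + 1) / t ^ 2
      = ∫ x, (1 - (pco a x ^ 2 + (‖x‖ - (n : ℝ) ^ 2) ^ 2) / t ^ 2) * rho n a x := hL.symm
    _ ≤ ∫ x, ∑ k ∈ Finset.range K, (ball (zz n a) R).indicator (rho n a) (rotI a (k * β) x) := by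
        refine integral_mono ?_ (integrable_finsetSum _ hintK) hpt
        have e : (fun x : X3 => (1 - (pco a x ^ 2 + (‖x‖ - (n : ℝ) ^ 2) ^ 2) / t ^ 2) * rho n a x) =
            fun x => rho n a x - (pco a x ^ 2 * rho n a x + (‖x‖ - (n : ℝ) ^ 2) ^ 2 * rho n a x) *
              (t ^ 2)⁻¹ := by
          ext x; field_simp
        rw [e]
        exact hint0.sub (i2.mul_const _)
    _ = K * mass (rho n a) (zz n a, R) := by
        rw [integral_finsetSum _ hintK]
        have : ∀ k ∈ Finset.range K,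
            ∫ x, (ball (zz n a) R).indicator (rho n a) (rotI a (k * β) x) =
              mass (rho n a) (zz n a, R) := by
          intro k _
          rw [integral_rot a (k * β) ((ball (zz n a) R).indicator (rho n a)),
            integral_indicator measurableSet_ball]
          rfl
        rw [Finset.sum_congr rfl this, Finset.sum_const, Finset.card_range, nsmul_eq_mul]

/-- the mass of the ring away from its plane -/
lemma ring_mass_out {n : ℕ} (hn : 1 ≤ n) {a : ℝ} (hnorm : ∫ x, rho n a x = 1) {z : X3} {R d : ℝ}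
    (hd : 0 < d) (h : ∀ x ∈ ball z R, d ≤ |pco a x|) :
    mass (rho n a) (z, R) ≤ n ^ 2 * (n + 1) / (2 * d ^ 2) := by
  have h1 : mass (rho n a) (z, R) ≤ ∫ x, pco a x ^ 2 * rho n a x * (d ^ 2)⁻¹ := by
    unfold mass
    rw [← integral_indicator measurableSet_ball]
    refine integral_mono ((nice_rho hn a).int.indicator measurableSet_ball)
      ((integrable_pco_rho hn a).mul_const _) fun x => ?_
    by_cases hx : x ∈ ball z R
    · simp only
      rw [indicator_of_mem hx]
      have h2 := pow_le_pow_left₀ hd.le (h x hx) 2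
      rw [sq_abs] at h2
      rw [← div_eq_mul_inv, le_div_iff₀ (by positivity)]
      nlinarith [rho_nonneg n a x]
    · simp only
      rw [indicator_of_notMem hx]
      have := rho_nonneg n a x
      positivity
  refine h1.trans (le_of_eq ?_)
  rw [integral_mul_const, moment_pco hn hnorm]
  field_simp

end

end Vale.Agent.P370.H253
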