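import Vale.Agent.P370.H253.RingCharge
import Vale.Agent.P370.H115.Small

/-! **Block R1c: the sup of the potential of a ring charge is `≤ C (1 + log n) / n²`.** -/

namespace Vale.Agent.P370.H253

open MeasureTheory Metric Set Filter Topology
open Vale.Agent.P370.H115
open scoped Nat

noncomputable section

lemma norm_rho {n : ℕ} (hn : 2 ≤ n) (a : ℝ) : ∫ x, rho n a x = 1 := by
  have h3 := (H115.overlap n a a hn).1
  rw [sub_self, Real.cos_zero] at h3
  have h4 : (0 : ℝ) ^ (n - 1) = 0 := zero_pow (by omega)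
  have h5 : ∫ x, rho n a x = ∫ x, ringC n a x * ringC n a x := by
    congr 1; ext x; unfold rho; ring
  rw [h5, h3]
  norm_num
  omega

lemma mass_rot {n : ℕ} (a : ℝ) {β : ℝ} (k : ℕ) (hβ : β * ((n - 1 : ℕ) : ℝ) = k * Real.pi)
    (x : X3) (r : ℝ) : mass (rho n a) (rotI a β x, r) = mass (rho n a) (x, r) := by
  unfold mass
  rw [← integral_indicator measurableSet_ball, ← integral_indicator measurableSet_ball,
    ← integral_rot a β]
  congr 1
  ext y
  by_cases h : y ∈ ball x r
  · have h' : rotI a β y ∈ ball (rotI a β x) r := by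
      rw [mem_ball, (rotI a β).dist_map]; exact h
    simp only
    rw [indicator_of_mem h', indicator_of_mem h, rho_rot a k hβ]
  · have h' : rotI a β y ∉ ball (rotI a β x) r := by
      rw [mem_ball, (rotI a β).dist_map]; exact h
    simp only
    rw [indicator_of_notMem h', indicator_of_notMem h]

lemma mass_le_one {n : ℕ} (hn : 2 ≤ n) (a : ℝ) (p : X3 × ℝ) : mass (rho n a) p ≤ 1 := by
  rw [← norm_rho hn a]
  unfold mass
  exact setIntegral_le_integral (nice_rho (by omega) a).int
    (Eventually.of_forall fun y => rho_nonneg n a y)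

/-- many disjoint copies of a ball have little mass -/
lemma mass_disj {n : ℕ} (hn : 2 ≤ n) (a : ℝ) {K : ℕ} (c : ℕ → X3) {r μ : ℝ}
    (hd : ∀ i < K, ∀ j < K, i ≠ j → 2 * r ≤ dist (c i) (c j))
    (hm : ∀ i < K, mass (rho n a) (c i, r) = μ) : K * μ ≤ 1 := by
  have hN := nice_rho (n := n) (by omega) a
  have h1 : (K : ℝ) * μ = ∫ y, ∑ k ∈ Finset.range K, (ball (c k) r).indicator (rho n a) y := by
    rw [integral_finsetSum _ fun k _ => hN.int.indicator measurableSet_ball]
    have : ∀ k ∈ Finset.range K, ∫ y, (ball (c k) r).indicator (rho n a) y = μ := by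
      intro k hk
      rw [integral_indicator measurableSet_ball]
      exact hm k (Finset.mem_range.1 hk)
    rw [Finset.sum_congr rfl this, Finset.sum_const, Finset.card_range, nsmul_eq_mul]
  rw [h1, ← norm_rho hn a]
  refine integral_mono (integrable_finsetSum _ fun k _ => hN.int.indicator measurableSet_ball)
    hN.int fun y => ?_
  by_cases h : ∃ k ∈ Finset.range K, y ∈ ball (c k) r
  · obtain ⟨k, hk, hy⟩ := h
    have : ∑ k ∈ Finset.range K, (ball (c k) r).indicator (rho n a) y = rho n a y := by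
      rw [Finset.sum_eq_single_of_mem k hk, indicator_of_mem hy]
      intro j hj hjk
      apply indicator_of_notMem
      intro hy'
      have h2 := hd k (Finset.mem_range.1 hk) j (Finset.mem_range.1 hj) hjk.symm
      have h3 := dist_triangle_left (c k) (c j) y
      rw [mem_ball] at hy hy'
      linarith
    exact this.le
  · have : ∑ k ∈ Finset.range K, (ball (c k) r).indicator (rho n a) y = 0 := by
      refine Finset.sum_eq_zero fun k hk => indicator_of_notMem (fun hy => h ⟨k, hk, hy⟩) _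
    simp only
    rw [this]
    exact rho_nonneg n a y

/-- the distance of two rotated copies of a point -/
lemma dist_rot {a β : ℝ} {K : ℕ} (hβ : 0 < β) (hK : K * β ≤ Real.pi) (x : X3) :
    ∀ i < K, ∀ j < K, i ≠ j →
      2 * β / Real.pi * ‖zet a x‖ ≤ dist (rotI a (i * β) x) (rotI a (j * β) x) := by
  have key : ∀ i < K, ∀ j < K, i < j →
      2 * β / Real.pi * ‖zet a x‖ ≤ dist (rotI a (i * β) x) (rotI a (j * β) x) := by
    intro i hi j hj hij
    have h1 := norm_zet_le a (rotI a (i * β) x - rotI a (j * β) x)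
    rw [dist_eq_norm]
    refine le_trans ?_ h1
    rw [zet_sub, rotI_apply, rotI_apply, zet_rotF, zet_rotF]
    have h2 : Complex.exp ((i * β : ℝ) * Complex.I) * zet a x -
        Complex.exp ((j * β : ℝ) * Complex.I) * zet a x =
        -(Complex.exp ((i * β : ℝ) * Complex.I) * zet a x *
          (Complex.exp (Complex.I * (((j - i : ℝ) * β : ℝ) : ℂ)) - 1)) := by
      have h3 : Complex.exp ((j * β : ℝ) * Complex.I) = Complex.exp ((i * β : ℝ) * Complex.I) *
          Complex.exp (Complex.I * (((j - i : ℝ) * β : ℝ) : ℂ)) := by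
        rw [← Complex.exp_add]
        congr 1
        push_cast; ring
      rw [h3]; ring
    rw [h2, norm_neg, norm_mul, norm_mul, Complex.norm_exp_ofReal_mul_I, one_mul,
      Complex.norm_exp_I_mul_ofReal_sub_one, mul_comm (‖zet a x‖)]
    refine mul_le_mul_of_nonneg_right ?_ (norm_nonneg _)
    have hij' : (1 : ℝ) ≤ (j : ℝ) - i := by
      have : (i : ℝ) + 1 ≤ j := by exact_mod_cast hij
      linarith
    have hle : ((j : ℝ) - i) * β ≤ Real.pi := by
      refine le_trans (mul_le_mul_of_nonneg_right ?_ hβ.le) hK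
      have : (j : ℝ) < K := by exact_mod_cast hj
      have : (0 : ℝ) ≤ i := Nat.cast_nonneg i
      linarith
    have hpos : 0 ≤ ((j : ℝ) - i) * β / 2 := by positivity
    have h4 := Real.mul_le_sin hpos (by linarith)
    have h5 : 2 * β / Real.pi ≤ 2 * Real.sin (((j : ℝ) - i) * β / 2) := by
      have h6 : 2 * β / Real.pi ≤ 2 * (2 / Real.pi * (((j : ℝ) - i) * β / 2)) := by
        have e : 2 * (2 / Real.pi * (((j : ℝ) - i) * β / 2)) = 2 * β / Real.pi * ((j : ℝ) - i) := by
          ring
        rw [e]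
        have : 0 ≤ 2 * β / Real.pi := by have := Real.pi_pos; positivity
        nlinarith
      linarith
    exact h5.trans (le_abs_self _)
  intro i hi j hj hij
  rcases lt_or_gt_of_ne hij with h | h
  · exact key i hi j hj h
  · rw [dist_comm]; exact key j hj i hi h

/-- **mass of a ball**: `≤ 128 r / n²` for `r ≥ n` -/
theorem mass_ball_le {n : ℕ} (hn : 2 ≤ n) (a : ℝ) (x : X3) {r : ℝ} (hr : (n : ℝ) ≤ r) :
    mass (rho n a) (x, r) ≤ 128 * r / n ^ 2 := by
  have hn1 : 1 ≤ n := by omega
  have hn0 : (0 : ℝ) < n := by positivity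
  have hn2 : (2 : ℝ) ≤ n := by exact_mod_cast hn
  have hr0 : 0 < r := lt_of_lt_of_le hn0 hr
  by_cases hbig : (n : ℝ) ^ 2 / 12 < r
  · refine (mass_le_one hn a _).trans ?_
    rw [le_div_iff₀ (by positivity)]
    linarith
  push Not at hbig
  by_cases hz : (n : ℝ) ^ 2 / 2 ≤ ‖zet a x‖
  · -- rotated copies
    have hJ : (0 : ℝ) < ((n - 1 : ℕ) : ℝ) := by
      have : 0 < n - 1 := by omega
      exact_mod_cast this
    have hJ1 : ((n - 1 : ℕ) : ℝ) = n - 1 := by
      rw [Nat.cast_sub hn1]; simp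
    set l : ℕ := ⌈2 * r * (n - 1 : ℝ) / n ^ 2⌉₊ with hl
    have hl1 : 2 * r * (n - 1 : ℝ) / n ^ 2 ≤ l := Nat.le_ceil _
    have hl0 : 0 < l := by
      rw [hl, Nat.ceil_pos]
      have : (0 : ℝ) < n - 1 := by linarith
      positivity
    have hl2 : (l : ℝ) ≤ 3 * r / n := by
      have h1 := Nat.ceil_lt_add_one (a := 2 * r * (n - 1 : ℝ) / n ^ 2) (by
        have : (0 : ℝ) ≤ n - 1 := by linarith
        positivity)
      have h2 : 2 * r * (n - 1 : ℝ) / n ^ 2 ≤ 2 * r / n := by
        rw [div_le_div_iff₀ (by positivity) hn0]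
        nlinarith [mul_pos hr0 hn0]
      have h3 : 1 ≤ r / n := by rw [le_div_iff₀ hn0]; linarith
      have h4 : 3 * r / n = 2 * r / n + r / n := by ring
      rw [← hl] at h1
      linarith
    set K : ℕ := (n - 1) / l with hK
    have hl0' : (0 : ℝ) < l := by exact_mod_cast hl0
    have hKl : (K : ℝ) * l ≤ ((n - 1 : ℕ) : ℝ) := by
      exact_mod_cast Nat.div_mul_le_self (n - 1) l
    have hKl2 : ((n - 1 : ℕ) : ℝ) < (K + 1) * l := by
      have : n - 1 < l * (K + 1) := Nat.lt_mul_div_succ (n - 1) hl0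
      have h2 : ((n - 1 : ℕ) : ℝ) < ((l * (K + 1) : ℕ) : ℝ) := by exact_mod_cast this
      push_cast at h2
      linarith
    set β : ℝ := l * Real.pi / ((n - 1 : ℕ) : ℝ) with hβ
    have hpi := Real.pi_pos
    have hβ0 : 0 < β := by rw [hβ]; positivity
    have hKβ : (K : ℝ) * β ≤ Real.pi := by
      rw [hβ, mul_div_assoc', div_le_iff₀ hJ]
      nlinarith
    have hsep : 2 * r ≤ 2 * β / Real.pi * ‖zet a x‖ := by
      have h1 : 2 * β / Real.pi = 2 * l / ((n - 1 : ℕ) : ℝ) := by
        rw [hβ]; field_simp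
      rw [h1]
      have h2 : 4 * r / n ^ 2 ≤ 2 * l / ((n - 1 : ℕ) : ℝ) := by
        rw [div_le_div_iff₀ (by positivity) hJ]
        rw [div_le_iff₀ (by positivity)] at hl1
        rw [hJ1]
        linarith
      calc 2 * r = 4 * r / n ^ 2 * ((n : ℝ) ^ 2 / 2) := by field_simp; norm_num
        _ ≤ 2 * l / ((n - 1 : ℕ) : ℝ) * ‖zet a x‖ :=
          mul_le_mul h2 hz (by positivity) (by positivity)
    have hdisj := mass_disj hn a (K := K) (fun k => rotI a (k * β) x) (r := r)
      (μ := mass (rho n a) (x, r))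
      (fun i hi j hj hij => hsep.trans (dist_rot hβ0 hKβ x i hi j hj hij))
      (fun i _ => mass_rot a (i * l) (by rw [hβ]; field_simp; push_cast; ring) x r)
    -- K is large
    have hK2 : (n : ℝ) ^ 2 / (24 * r) ≤ K := by
      have h1 : ((n - 1 : ℕ) : ℝ) / l - 1 < K := by
        have : ((n - 1 : ℕ) : ℝ) / l < K + 1 := by rw [div_lt_iff₀ hl0']; exact hKl2
        linarith
      have h2 : (n : ℝ) ^ 2 / (6 * r) ≤ ((n - 1 : ℕ) : ℝ) / l := by
        rw [div_le_div_iff₀ (by positivity) hl0', hJ1]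
        have h3 : (l : ℝ) * n ≤ 3 * r := by rwa [le_div_iff₀ hn0] at hl2
        have h4 : (n : ℝ) ≤ 2 * (n - 1) := by linarith
        calc (n : ℝ) ^ 2 * l = n * (l * n) := by ring
          _ ≤ n * (3 * r) := mul_le_mul_of_nonneg_left h3 hn0.le
          _ ≤ (2 * (n - 1)) * (3 * r) := mul_le_mul_of_nonneg_right h4 (by positivity)
          _ = (n - 1) * (6 * r) := by ring
      have h5 : (2 : ℝ) ≤ n ^ 2 / (6 * r) := by
        rw [le_div_iff₀ (by positivity)]; linarith
      have h6 : (n : ℝ) ^ 2 / (24 * r) = n ^ 2 / (6 * r) / 4 := by field_simp; norm_num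
      rw [h6]
      linarith
    have hmn : 0 ≤ mass (rho n a) (x, r) := mass_nonneg (rho_nonneg n a) _
    have h7 : (n : ℝ) ^ 2 / (24 * r) * mass (rho n a) (x, r) ≤ 1 :=
      (mul_le_mul_of_nonneg_right hK2 hmn).trans hdisj
    rw [div_mul_eq_mul_div, div_le_iff₀ (by positivity)] at h7
    rw [le_div_iff₀ (by positivity)]
    nlinarith
  · -- far from the ring: Chebyshev
    push Not at hz
    have hint0 : Integrable (rho n a) := (nice_rho hn1 a).int
    have hrad : Integrable (fun x : X3 => (‖x‖ - (n : ℝ) ^ 2) ^ 2 * rho n a x) := by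
      refine integrable_q_rho hn1 a 2 (C := (n : ℝ) ^ 4) (by fun_prop) (by positivity) fun x => ?_
      rw [abs_pow, show (n : ℝ) ^ 4 * (1 + ‖x‖) ^ 2 = ((n : ℝ) ^ 2 * (1 + ‖x‖)) ^ 2 by ring]
      refine pow_le_pow_left₀ (abs_nonneg _) ?_ 2
      have h1 : (1 : ℝ) ≤ (n : ℝ) ^ 2 := one_le_pow₀ (by exact_mod_cast hn1)
      rw [abs_le]
      constructor <;> nlinarith [norm_nonneg x, mul_le_mul_of_nonneg_right h1 (norm_nonneg x)]
    have h1 : mass (rho n a) (x, r) ≤
        ∫ y, (pco a y ^ 2 * rho n a y + (‖y‖ - (n : ℝ) ^ 2) ^ 2 * rho n a y) * (64 / n ^ 4) := by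
      unfold mass
      rw [← integral_indicator measurableSet_ball]
      refine integral_mono (hint0.indicator measurableSet_ball)
        (((integrable_pco_rho hn1 a).add hrad).mul_const _) fun y => ?_
      by_cases hy : y ∈ ball x r
      · simp only
        rw [indicator_of_mem hy]
        have hzy : ‖zet a y‖ ≤ 3 / 4 * (n : ℝ) ^ 2 := by
          have e1 : ‖zet a (y - x)‖ ≤ r := by
            refine (norm_zet_le a _).trans ?_
            rw [← dist_eq_norm]; exact (mem_ball.1 hy).le
          rw [zet_sub] at e1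
          have e2 : ‖zet a y‖ ≤ ‖zet a y - zet a x‖ + ‖zet a x‖ := by
            have := norm_add_le (zet a y - zet a x) (zet a x)
            rwa [sub_add_cancel] at this
          linarith
        have e3 := norm_decomp a y
        have e4 : (n : ℝ) ^ 4 / 64 ≤ pco a y ^ 2 + (‖y‖ - (n : ℝ) ^ 2) ^ 2 := by
          by_cases hyn : ‖y‖ ≤ 7 / 8 * (n : ℝ) ^ 2
          · nlinarith [sq_nonneg (pco a y), norm_nonneg y]
          · push Not at hyn
            have e5 : (7 / 8 * (n : ℝ) ^ 2) ^ 2 ≤ ‖y‖ ^ 2 :=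
              pow_le_pow_left₀ (by positivity) hyn.le 2
            have e6 : ‖zet a y‖ ^ 2 ≤ (3 / 4 * (n : ℝ) ^ 2) ^ 2 :=
              pow_le_pow_left₀ (norm_nonneg _) hzy 2
            nlinarith [sq_nonneg (‖y‖ - (n : ℝ) ^ 2)]
        have e7 : 1 ≤ (pco a y ^ 2 + (‖y‖ - (n : ℝ) ^ 2) ^ 2) * (64 / n ^ 4) := by
          rw [mul_div_assoc', le_div_iff₀ (by positivity)]
          linarith
        have e8 := mul_le_mul_of_nonneg_right e7 (rho_nonneg n a y)
        linarith
      · simp only
        rw [indicator_of_notMem hy]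
        have := rho_nonneg n a y
        positivity
    refine h1.trans ?_
    rw [integral_mul_const, integral_add (integrable_pco_rho hn1 a) hrad,
      moment_pco hn1 (norm_rho hn a), moment_rad hn1 (norm_rho hn a)]
    have h2 : ((n : ℝ) ^ 2 * (n + 1) / 2 + n ^ 2 * (n + 1) / 2) * (64 / n ^ 4) =
        64 * (n + 1) / n ^ 2 := by field_simp; ring
    rw [h2]
    refine div_le_div_of_nonneg_right ?_ (by positivity)
    nlinarith

end

end Vale.Agent.P370.H253
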