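import Vale.Agent.P370.H253.Ring

/-! **Block R1b, final statement**: the charge matrix of `m` equally spaced coplanar rings in shell
`n ≥ 65536 m⁴` is bounded below by `5·10⁻⁹/(m n²)`. -/

namespace Vale.Agent.P370.H253

open MeasureTheory Metric Set Filter Topology
open Vale.Agent.P370.H115
open scoped Nat

noncomputable section

lemma sin_gap {m i j : ℕ} (hm : 2 ≤ m) (hi : i < m) (hj : j < m) (hij : i ≠ j) :
    2 / (m : ℝ) ≤ |Real.sin (rang m j - rang m i)| := by
  have key : ∀ d : ℕ, 1 ≤ d → d < m → 2 / (m : ℝ) ≤ Real.sin (Real.pi * d / m) := by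
    intro d hd hdm
    have hm0 : (0 : ℝ) < m := by positivity
    have hd1 : (1 : ℝ) ≤ d := by exact_mod_cast hd
    have hdm' : (d : ℝ) + 1 ≤ m := by exact_mod_cast hdm
    by_cases h : 2 * d ≤ m
    · have h' : 2 * (d : ℝ) ≤ m := by exact_mod_cast h
      have h1 := Real.mul_le_sin (x := Real.pi * d / m) (by positivity) (by
        rw [div_le_div_iff₀ hm0 (by norm_num)]
        nlinarith [Real.pi_pos])
      refine le_trans ?_ h1
      have : 2 / Real.pi * (Real.pi * d / m) = 2 * d / m := by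
        field_simp
      rw [this]
      exact div_le_div_of_nonneg_right (by linarith) hm0.le
    · have h' : (m : ℝ) ≤ 2 * d := by
        have : m ≤ 2 * d := by omega
        exact_mod_cast this
      have e : Real.sin (Real.pi * d / m) = Real.sin (Real.pi * (m - d) / m) := by
        rw [← Real.sin_pi_sub]
        congr 1
        field_simp
      rw [e]
      have hmd : (1 : ℝ) ≤ m - d := by linarith
      have h1 := Real.mul_le_sin (x := Real.pi * (m - d) / m) (by positivity) (by
        rw [div_le_div_iff₀ hm0 (by norm_num)]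
        nlinarith [Real.pi_pos])
      refine le_trans ?_ h1
      have : 2 / Real.pi * (Real.pi * (m - d) / m) = 2 * (m - d) / m := by
        field_simp
      rw [this]
      exact div_le_div_of_nonneg_right (by linarith) hm0.le
  unfold rang
  rcases lt_or_gt_of_ne hij with h | h
  · have h1 := key (j - i) (by omega) (by omega)
    have e : Real.pi * j / m - Real.pi * i / m = Real.pi * ((j - i : ℕ) : ℝ) / m := by
      rw [Nat.cast_sub h.le]; ring
    rw [e]
    exact h1.trans (le_abs_self _)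
  · have h1 := key (i - j) (by omega) (by omega)
    have e : Real.pi * j / m - Real.pi * i / m = -(Real.pi * ((i - j : ℕ) : ℝ) / m) := by
      rw [Nat.cast_sub h.le]; ring
    rw [e, Real.sin_neg, abs_neg]
    exact h1.trans (le_abs_self _)

lemma DD_eq_coul {f g : X3 → ℝ} (hf : Nice f) (hg : Nice g) : P363.R.H10.DD f g = coul f g := by
  rw [coul_eq_iterated hf hg]
  rfl

/-- **the charge matrix of the rings is strictly positive** (given the normalisation) -/
theorem charge_lower_of_norm {n m : ℕ} (hm : 2 ≤ m) (hn : 65536 * m ^ 4 ≤ n)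
    (hnorm : ∀ i < m, ∫ x, rC n m i x ^ 2 = 1) (v : ℕ → ℝ) :
    1 / 200000000 / (m * (n : ℝ) ^ 2) * ∑ i ∈ Finset.range m, v i ^ 2 ≤
      ∑ i ∈ Finset.range m, ∑ j ∈ Finset.range m,
        P363.R.H10.DD (fun x => rC n m i x ^ 2) (fun x => rC n m j x ^ 2) * v i * v j := by
  have hm0 : (0 : ℝ) < m := by positivity
  have hm2 : (2 : ℝ) ≤ m := by exact_mod_cast hm
  have hnm : (65536 : ℝ) * m ^ 4 ≤ n := by exact_mod_cast hn
  have hm4 : (8 : ℝ) * m ≤ m ^ 4 := by nlinarith [pow_le_pow_left₀ (by norm_num) hm2 3]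
  have hn0 : (0 : ℝ) < n := by nlinarith
  have hn1 : 2 ≤ n := by
    have : 2 ≤ m ^ 4 := le_trans hm (Nat.le_self_pow (by norm_num) m)
    omega
  have hn1' : 1 ≤ n := by omega
  set ρ : Fin m → X3 → ℝ := fun i => rho n (rang m i) with hρ
  set z : Fin m → X3 := fun i => zz n (rang m i) with hz
  have hnorm' : ∀ i : Fin m, ∫ x, rho n (rang m i) x = 1 := fun i => hnorm i i.2
  have hN : ∀ i, Nice (ρ i) := fun i => nice_rho hn1' _
  set s : ℝ := n ^ 2 / (16 * m) with hs
  have hs0 : 0 < s := by positivity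
  have hpz : ∀ i j : Fin m, i ≠ j → 2 * n ^ 2 / m ≤ |pco (rang m j) (z i)| := by
    intro i j hij
    rw [hz]
    simp only
    rw [pco_zz, abs_mul, abs_of_nonneg (by positivity : (0 : ℝ) ≤ (n : ℝ) ^ 2)]
    have h1 := sin_gap hm i.2 j.2 (fun h => hij (Fin.ext h))
    have h2 := mul_le_mul_of_nonneg_left h1 (by positivity : (0 : ℝ) ≤ (n : ℝ) ^ 2)
    refine le_trans (le_of_eq ?_) h2
    ring
  have hself : ∀ j : Fin m, pco (rang m j) (z j) = 0 := by
    intro j
    rw [hz]; simp only
    rw [pco_zz]; simp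
  have hlow := coul_lower ρ hN (fun i x => rho_nonneg _ _ _) z (s := s) (μ := 1 / (1088 * m))
    (ε := m ^ 2 / n) hs0 (by positivity) (by positivity) ?_ ?_ ?_ ?_ (fun i => v i)
  · have hfin : coul (fun x => ∑ i : Fin m, v i * ρ i x) (fun x => ∑ i : Fin m, v i * ρ i x) =
        ∑ i ∈ Finset.range m, ∑ j ∈ Finset.range m,
          P363.R.H10.DD (fun x => rC n m i x ^ 2) (fun x => rC n m j x ^ 2) * v i * v j := by
      rw [coul_sum_left Finset.univ (fun i _ => (hN i).const_mul (v i))
        (Nice.sum Finset.univ fun i _ => (hN i).const_mul (v i))]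
      rw [Finset.sum_range]
      refine Finset.sum_congr rfl fun i _ => ?_
      rw [coul_const_mul_left, coul_sum_right Finset.univ (hN i)
        (fun j _ => (hN j).const_mul (v j)), Finset.sum_range, Finset.mul_sum]
      refine Finset.sum_congr rfl fun j _ => ?_
      rw [coul_const_mul_right]
      have : P363.R.H10.DD (fun x => rC n m i x ^ 2) (fun x => rC n m j x ^ 2) =
          coul (ρ i) (ρ j) := DD_eq_coul (hN i) (hN j)
      rw [this]
      ring
    rw [← hfin]
    refine le_trans ?_ hlow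
    rw [Finset.sum_range]
    refine mul_le_mul_of_nonneg_right ?_ (Finset.sum_nonneg fun i _ => sq_nonneg _)
    rw [hs]
    have e : 15 / (32768 * ((n : ℝ) ^ 2 / (16 * m))) * (1 / (1088 * m)) ^ 2 =
        (240 / (32768 * 1088 ^ 2)) / (m * n ^ 2) := by
      field_simp
      norm_num
    rw [e]
    exact div_le_div_of_nonneg_right (by norm_num) (by positivity)
  · -- distances
    intro i j hij
    have h1 := hpz i j hij
    have h2 : |pco (rang m j) (z i - z j)| ≤ dist (z i) (z j) := by
      rw [dist_eq_norm]; exact abs_pco_le _ _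
    rw [pco_sub, hself, sub_zero] at h2
    refine le_trans ?_ (h1.trans h2)
    rw [hs, div_div, div_le_div_iff₀ (by positivity) hm0]
    have : (0 : ℝ) < n ^ 2 * m := by positivity
    nlinarith
  · -- mass inside
    intro i
    have hJ : (0 : ℝ) < ((n - 1 : ℕ) : ℝ) := by
      have : 0 < n - 1 := by omega
      exact_mod_cast this
    set l : ℕ := (n - 1) / (136 * m) with hl
    have hdm : 0 < 136 * m := by omega
    have hbig : 136 * m ≤ n - 1 := by
      have h1 : m ≤ m ^ 4 := Nat.le_self_pow (by norm_num) m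
      omega
    have hl1 : 1 ≤ l := (Nat.one_le_div_iff hdm).2 hbig
    have hK : 2 * (n - 1) ≤ (544 * m) * l := by
      have h1 : (n - 1) < (136 * m) * (l + 1) := Nat.lt_mul_div_succ (n - 1) hdm
      nlinarith
    have hlle : (l : ℝ) * (136 * m) ≤ ((n - 1 : ℕ) : ℝ) := by
      have : l * (136 * m) ≤ n - 1 := Nat.div_mul_le_self _ _
      exact_mod_cast this
    have hbeta : (l : ℝ) * Real.pi / ((n - 1 : ℕ) : ℝ) < 3 / (128 * m) := by
      rw [div_lt_div_iff₀ hJ (by positivity)]
      have hpi : Real.pi < 3.1416 := Real.pi_lt_d4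
      have h1 : (l : ℝ) * Real.pi * (128 * m) ≤ (l * (136 * m)) * (3.1416 * 128 / 136) := by
        have h0 : (0 : ℝ) ≤ l * (128 * m) := by positivity
        nlinarith
      have h2 : (l * (136 * m) : ℝ) * (3.1416 * 128 / 136) < 3 * ((n - 1 : ℕ) : ℝ) := by
        have h3 : (0 : ℝ) < 3.1416 * 128 / 136 := by norm_num
        nlinarith
      linarith
    have hR : 3 * ((n : ℝ) ^ 2 / (128 * m)) + n ^ 2 * (l * Real.pi / ((n - 1 : ℕ) : ℝ)) <
        3 * s / 4 := by
      have h1 : (n : ℝ) ^ 2 * (l * Real.pi / ((n - 1 : ℕ) : ℝ)) < n ^ 2 * (3 / (128 * m)) :=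
        mul_lt_mul_of_pos_left hbeta (by positivity)
      have h2 : 3 * s / 4 = 3 * ((n : ℝ) ^ 2 / (128 * m)) + n ^ 2 * (3 / (128 * m)) := by
        rw [hs]; field_simp; norm_num
      rw [h2]
      linarith
    have hmass := ring_mass_lower hn1 (hnorm' i) (t := (n : ℝ) ^ 2 / (128 * m)) (by positivity)
      hl1 hK hR
    have hcheb : (1 : ℝ) / 2 ≤ 1 - n ^ 2 * (n + 1) / (n ^ 2 / (128 * m)) ^ 2 := by
      have e : (n : ℝ) ^ 2 * (n + 1) / (n ^ 2 / (128 * m)) ^ 2 = 16384 * m ^ 2 * (n + 1) / n ^ 2 := by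
        field_simp; norm_num
      rw [e]
      have h1 : 16384 * (m : ℝ) ^ 2 * (n + 1) / n ^ 2 ≤ 1 / 2 := by
        rw [div_le_div_iff₀ (by positivity) (by norm_num)]
        have h2 : (65536 : ℝ) * m ^ 2 ≤ n := by
          have : (m : ℝ) ^ 2 ≤ m ^ 4 := pow_le_pow_right₀ (by linarith) (by norm_num)
          linarith
        have h3 : (1 : ℝ) ≤ n := by exact_mod_cast hn1'
        nlinarith [mul_le_mul_of_nonneg_right h2 hn0.le, sq_nonneg (m : ℝ)]
      linarith
    have h5 : (1 : ℝ) / 2 ≤ ((544 * m : ℕ) : ℝ) * mass (ρ i) (z i, 3 * s / 4) := hcheb.trans hmass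
    rw [div_le_iff₀ (by positivity)]
    push_cast at h5
    linarith
  · -- mass outside
    intro i j hij
    have hd : (0 : ℝ) < n ^ 2 / m := by positivity
    have hball : ∀ x ∈ ball (z i) (9 * s / 4), (n : ℝ) ^ 2 / m ≤ |pco (rang m j) x| := by
      intro x hx
      have h1 : |pco (rang m j) (x - z i)| ≤ 9 * s / 4 := by
        refine (abs_pco_le _ _).trans ?_
        rw [← dist_eq_norm]
        exact (mem_ball.1 hx).le
      rw [pco_sub] at h1
      have h2 := hpz i j hij
      have h3 : |pco (rang m j) (z i)| ≤ |pco (rang m j) x| +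
          |pco (rang m j) x - pco (rang m j) (z i)| := by
        have := abs_sub_abs_le_abs_sub (pco (rang m j) (z i)) (pco (rang m j) x)
        rw [abs_sub_comm] at this
        linarith
      have h4 : 9 * s / 4 ≤ n ^ 2 / m := by
        rw [hs]
        have e : 9 * ((n : ℝ) ^ 2 / (16 * m)) / 4 = 9 / 64 * (n ^ 2 / m) := by
          field_simp; norm_num
        rw [e]; nlinarith
      have h5 : 2 * (n : ℝ) ^ 2 / m = n ^ 2 / m + n ^ 2 / m := by ring
      linarith
    refine (ring_mass_out hn1' (hnorm' j) hd hball).trans ?_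
    have e : (n : ℝ) ^ 2 * (n + 1) / (2 * (n ^ 2 / m) ^ 2) = (n + 1) * m ^ 2 / (2 * n ^ 2) := by
      field_simp
    rw [e, div_le_div_iff₀ (by positivity) hn0]
    have h3 : (1 : ℝ) ≤ n := by exact_mod_cast hn1'
    have h4 : (0 : ℝ) ≤ m ^ 2 * n := by positivity
    nlinarith
  · -- smallness
    rw [Fintype.card_fin]
    have e : (m : ℝ) * (m ^ 2 / n) = m ^ 3 / n := by ring
    rw [e, div_div, div_le_div_iff₀ hn0 (by positivity)]
    nlinarith

/-- helper115's `ChargeStmt` follows from the normalisation part of `OverlapStmt` -/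
theorem chargeStmt_of_overlap (h : OverlapStmt) : ChargeStmt := by
  refine ⟨1 / 200000000, 20, by norm_num, fun n m hm hmn v => ?_⟩
  have h1 : 65536 * m ^ 4 ≤ n := by
    calc 65536 * m ^ 4 = 2 ^ 16 * m ^ 4 := by norm_num
      _ ≤ m ^ 16 * m ^ 4 := Nat.mul_le_mul_right _ (Nat.pow_le_pow_left hm 16)
      _ = m ^ 20 := by ring
      _ ≤ n := hmn
  have hn : 2 ≤ n := by
    have h2 : 1 ≤ m ^ 4 := Nat.one_le_pow _ _ (by omega)
    omega
  refine charge_lower_of_norm hm h1 (fun i _ => ?_) v
  have h3 := (h n (rang m i) (rang m i) hn).1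
  rw [sub_self, Real.cos_zero] at h3
  have h4 : (0 : ℝ) ^ (n - 1) = 0 := zero_pow (by omega)
  have h5 : ∫ x, rC n m i x ^ 2 = ∫ x, ringC n (rang m i) x * ringC n (rang m i) x := by
    congr 1; ext x; unfold rC; ring
  rw [h5, h3]
  norm_num
  omega

end

end Vale.Agent.P370.H253
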