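import Vale.Agent.P370.H115.RingDefs
import Vale.Agent.P363.R.B5.Polar
import Vale.Agent.P363.R.H10.Sym

/-! Moments of the ring charges `ringC n a x ^ 2`: polar integration of homogeneous functions, exact
first and second radial moments, exact second moment along the pole. -/

namespace Vale.Agent.P370.H253

open MeasureTheory Metric Set Filter Topology
open Vale.Agent.P370.H115
open scoped Nat

noncomputable section

/-- three-dimensional space -/
abbrev X3 : Type := EuclideanSpace ℝ (Fin 3)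

/-- polar coordinates for homogeneous times radial functions -/
lemma integral_hom (q : X3 → ℝ) (d : ℕ) (hq : ∀ (c : ℝ) (x : X3), 0 < c → q (c • x) = c ^ d * q x)
    (g : ℝ → ℝ) :
    ∫ x, q x * g ‖x‖ = (∫ u : P363.B5.S2, q u ∂P363.B5.sig) *
      ∫ r in Ioi (0 : ℝ), r ^ (d + 2) * g r := by
  rw [P363.B5.integral_pol (fun x => q x * g ‖x‖)]
  have h1 : ∀ p : P363.B5.S2 × Ioi (0 : ℝ), q (P363.B5.pol p) * g ‖P363.B5.pol p‖ =
      q (p.1 : X3) * ((p.2 : ℝ) ^ d * g p.2) := by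
    intro p
    have hp : 0 < (p.2 : ℝ) := p.2.2
    have hn : ‖P363.B5.pol p‖ = p.2 := by
      have hu : ‖(p.1 : X3)‖ = 1 := by
        simp
      unfold P363.B5.pol
      rw [norm_smul, hu, Real.norm_of_nonneg hp.le, mul_one]
    rw [hn]
    unfold P363.B5.pol
    rw [hq _ _ hp]
    ring
  simp only [h1]
  rw [integral_prod_mul (fun u : P363.B5.S2 => q (u : X3))
    (fun r : Ioi (0 : ℝ) => (r : ℝ) ^ d * g r), P363.B5.integral_rad (fun r => r ^ d * g r)]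
  congr 1
  refine setIntegral_congr_fun measurableSet_Ioi fun r _ => ?_
  show r ^ 2 * (r ^ d * g r) = r ^ (d + 2) * g r
  ring

/-! ### the geometry of a ring -/

lemma zet_re (a : ℝ) (x : X3) : (zet a x).re = x 2 := rfl
lemma zet_im (a : ℝ) (x : X3) : (zet a x).im = wco a x := rfl

lemma norm_sq3 (x : X3) : ‖x‖ ^ 2 = x 0 ^ 2 + x 1 ^ 2 + x 2 ^ 2 := P363.R.H10.norm_sq_eq_sum x

lemma norm_zet_sq (a : ℝ) (x : X3) : ‖zet a x‖ ^ 2 = x 2 ^ 2 + wco a x ^ 2 := by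
  rw [← Complex.normSq_eq_norm_sq, Complex.normSq_apply, zet_re, zet_im]
  ring

lemma norm_decomp (a : ℝ) (x : X3) : ‖x‖ ^ 2 = pco a x ^ 2 + ‖zet a x‖ ^ 2 := by
  rw [norm_zet_sq, norm_sq3, pco, wco]
  have := Real.sin_sq_add_cos_sq a
  linear_combination (-(x 0 ^ 2 + x 1 ^ 2)) * this

lemma norm_zet_le (a : ℝ) (x : X3) : ‖zet a x‖ ≤ ‖x‖ := by
  have := norm_decomp a x
  nlinarith [sq_nonneg (pco a x), norm_nonneg x, norm_nonneg (zet a x)]

lemma abs_pco_le (a : ℝ) (x : X3) : |pco a x| ≤ ‖x‖ := by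
  have := norm_decomp a x
  apply abs_le_of_sq_le_sq _ (norm_nonneg x)
  nlinarith [sq_nonneg (‖zet a x‖)]

lemma zet_smul (a c : ℝ) (x : X3) : zet a (c • x) = (c : ℂ) * zet a x := by
  apply Complex.ext
  · simp [zet]
  · simp [zet]; ring

lemma pco_smul (a c : ℝ) (x : X3) : pco a (c • x) = c * pco a x := by
  simp [pco]; ring

/-- the pole -/
def pvec (a : ℝ) : X3 := !₂[Real.cos a, Real.sin a, 0]

lemma zet_add_pvec (a t : ℝ) (x : X3) : zet a (x + t • pvec a) = zet a x := by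
  apply Complex.ext
  · simp [zet, pvec]
  · simp [zet, pvec]; ring

lemma pco_add_pvec (a t : ℝ) (x : X3) : pco a (x + t • pvec a) = pco a x + t := by
  simp only [pco, pvec, PiLp.add_apply, PiLp.smul_apply, smul_eq_mul]
  have := Real.sin_sq_add_cos_sq a
  simp
  linear_combination t * this

/-- the angular part -/
def hh (n : ℕ) (a : ℝ) (x : X3) : ℝ := ((zet a x) ^ (n - 1)).re ^ 2

lemma continuous_zet (a : ℝ) : Continuous (zet a) := by
  have h : zet a = fun x => ((x 2 : ℝ) : ℂ) + (((-Real.sin a * x 0 + Real.cos a * x 1 : ℝ)) : ℂ) *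
      Complex.I := by
    ext x
    apply Complex.ext
    · simp only [zet, Complex.add_re, Complex.ofReal_re, Complex.mul_re, Complex.I_re,
        Complex.ofReal_im, Complex.I_im]
      ring
    · simp only [zet, Complex.add_im, Complex.ofReal_im, Complex.mul_im, Complex.I_re,
        Complex.ofReal_re, Complex.I_im]
      ring
  rw [h]
  fun_prop

lemma continuous_hh (n : ℕ) (a : ℝ) : Continuous (hh n a) :=
  (Complex.continuous_re.comp ((continuous_zet a).pow _)).pow 2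

lemma hh_nonneg (n : ℕ) (a : ℝ) (x : X3) : 0 ≤ hh n a x := sq_nonneg _

lemma hh_le (n : ℕ) (a : ℝ) (x : X3) : hh n a x ≤ ‖x‖ ^ (2 * (n - 1)) := by
  unfold hh
  rw [← sq_abs, mul_comm 2, pow_mul]
  refine pow_le_pow_left₀ (abs_nonneg _) ?_ 2
  calc |((zet a x) ^ (n - 1)).re| ≤ ‖(zet a x) ^ (n - 1)‖ := Complex.abs_re_le_norm _
    _ = ‖zet a x‖ ^ (n - 1) := norm_pow _ _
    _ ≤ ‖x‖ ^ (n - 1) := pow_le_pow_left₀ (norm_nonneg _) (norm_zet_le a x) _

lemma hh_smul (n : ℕ) (a c : ℝ) (x : X3) : hh n a (c • x) = c ^ (2 * (n - 1)) * hh n a x := by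
  unfold hh
  rw [zet_smul, mul_pow, ← Complex.ofReal_pow, Complex.re_ofReal_mul, mul_pow, ← pow_mul,
    mul_comm (n - 1) 2]

lemma hh_add_pvec (n : ℕ) (a t : ℝ) (x : X3) : hh n a (x + t • pvec a) = hh n a x := by
  unfold hh
  rw [zet_add_pvec]

lemma ringC_sq (n : ℕ) (a : ℝ) (x : X3) :
    ringC n a x ^ 2 = cn n ^ 2 * (hh n a x * Real.exp (-(2 / n) * ‖x‖)) := by
  unfold ringC hh
  rw [mul_pow, mul_pow, ← Real.exp_nat_mul]
  have : ((2 : ℕ) : ℝ) * (-‖x‖ / n) = -(2 / n) * ‖x‖ := by push_cast; ring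
  rw [this]
  ring

/-- everything we integrate is nice -/
lemma nice_mul_hh {n : ℕ} (hn : 1 ≤ n) (a : ℝ) (k : ℕ) {q : X3 → ℝ} (hq : Continuous q)
    {C : ℝ} (hC : 0 ≤ C) (hb : ∀ x, |q x| ≤ C * (1 + ‖x‖) ^ k) :
    P363.R.H10.Nice (fun x => q x * hh n a x * Real.exp (-(2 / n) * ‖x‖)) := by
  have h2 : (0 : ℝ) < 2 / n := by positivity
  refine P363.R.H10.nice_of_exp (hq.mul (continuous_hh n a)).measurable h2 (k + 2 * (n - 1)) hC
    fun x => ?_
  rw [Pi.mul_apply, abs_mul, abs_of_nonneg (hh_nonneg n a x), pow_add, ← mul_assoc]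
  refine mul_le_mul (hb x) ((hh_le n a x).trans ?_) (hh_nonneg n a x) (by positivity)
  exact pow_le_pow_left₀ (norm_nonneg x) (by linarith [norm_nonneg x]) _

lemma norm_pow_le (k : ℕ) (x : X3) : |‖x‖ ^ k| ≤ 1 * (1 + ‖x‖) ^ k := by
  rw [abs_of_nonneg (by positivity), one_mul]
  exact pow_le_pow_left₀ (norm_nonneg x) (by linarith) _

/-! ### radial moments -/

/-- `∫ |x|^k h e^{-2|x|/n}` -/
def Mk (n : ℕ) (a : ℝ) (k : ℕ) : ℝ := ∫ x : X3, ‖x‖ ^ k * hh n a x * Real.exp (-(2 / n) * ‖x‖)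

lemma Mk_eq {n : ℕ} (hn : 1 ≤ n) (a : ℝ) (k : ℕ) :
    Mk n a k = (∫ u : P363.B5.S2, hh n a u ∂P363.B5.sig) *
      ((2 * n + k)! / (2 / (n : ℝ)) ^ (2 * n + k + 1)) := by
  have h2 : (0 : ℝ) < 2 / n := by positivity
  have h := integral_hom (hh n a) (2 * (n - 1)) (fun c x _ => hh_smul n a c x)
    (fun r => r ^ k * Real.exp (-(2 / n) * r))
  have e1 : Mk n a k = ∫ x : X3, hh n a x * (‖x‖ ^ k * Real.exp (-(2 / n) * ‖x‖)) := by
    unfold Mk; congr 1; ext x; ring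
  rw [e1, h]
  congr 1
  rw [← (P363.R.H10.pow_exp_int (2 * n + k) h2).2]
  refine setIntegral_congr_fun measurableSet_Ioi fun r _ => ?_
  show r ^ (2 * (n - 1) + 2) * (r ^ k * Real.exp (-(2 / n) * r)) = _
  rw [← mul_assoc, ← pow_add]
  congr 2
  omega

lemma Mk_one {n : ℕ} (hn : 1 ≤ n) (a : ℝ) : Mk n a 1 = (2 * n + 1) * n / 2 * Mk n a 0 := by
  rw [Mk_eq hn, Mk_eq hn]
  have hn0 : (n : ℝ) ≠ 0 := by positivity
  rw [show 2 * n + 1 = (2 * n) + 1 by rfl, Nat.factorial_succ]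
  simp only [add_zero, div_pow, pow_succ]
  push_cast
  field_simp

lemma Mk_two {n : ℕ} (hn : 1 ≤ n) (a : ℝ) :
    Mk n a 2 = (2 * n + 2) * (2 * n + 1) * n ^ 2 / 4 * Mk n a 0 := by
  rw [Mk_eq hn, Mk_eq hn]
  have hn0 : (n : ℝ) ≠ 0 := by positivity
  rw [show 2 * n + 2 = (2 * n + 1) + 1 by rfl, Nat.factorial_succ, Nat.factorial_succ]
  simp only [add_zero, div_pow, pow_succ]
  push_cast
  field_simp
  ring

/-! ### the moment along the pole -/

lemma hasLineDerivAt_pco (a : ℝ) (x : X3) : HasLineDerivAt ℝ (pco a) 1 x (pvec a) := by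
  unfold HasLineDerivAt
  have : (fun t : ℝ => pco a (x + t • pvec a)) = fun t => pco a x + t := by
    ext t; exact pco_add_pvec a t x
  rw [this]
  exact (hasDerivAt_id (0 : ℝ)).const_add _

lemma hasLineDerivAt_hh (n : ℕ) (a : ℝ) (x : X3) : HasLineDerivAt ℝ (hh n a) 0 x (pvec a) := by
  unfold HasLineDerivAt
  have : (fun t : ℝ => hh n a (x + t • pvec a)) = fun _ => hh n a x := by
    ext t; exact hh_add_pvec n a t x
  rw [this]
  exact hasDerivAt_const _ _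

lemma hasLineDerivAt_norm' (a : ℝ) {x : X3} (hx : x ≠ 0) :
    HasLineDerivAt ℝ (fun y : X3 => ‖y‖) (pco a x / ‖x‖) x (pvec a) := by
  unfold HasLineDerivAt
  have hnx : 0 < ‖x‖ := norm_pos_iff.2 hx
  have h1 : (fun t : ℝ => ‖x + t • pvec a‖) =
      fun t => Real.sqrt ((pco a x + t) ^ 2 + ‖zet a x‖ ^ 2) := by
    ext t
    have := norm_decomp a (x + t • pvec a)
    rw [pco_add_pvec, zet_add_pvec] at this
    rw [← this, Real.sqrt_sq (norm_nonneg _)]
  rw [h1]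
  have h2 : HasDerivAt (fun t : ℝ => (pco a x + t) ^ 2 + ‖zet a x‖ ^ 2) (2 * pco a x) 0 := by
    have h3 := (((hasDerivAt_id (0 : ℝ)).const_add (pco a x)).pow 2).add_const (‖zet a x‖ ^ 2)
    simpa using h3
  have h4 : (pco a x + 0) ^ 2 + ‖zet a x‖ ^ 2 = ‖x‖ ^ 2 := by
    rw [add_zero, ← norm_decomp]
  have h5 := h2.sqrt (by rw [h4]; positivity)
  rw [h4, Real.sqrt_sq hnx.le] at h5
  have h6 : pco a x / ‖x‖ = 2 * pco a x / (2 * ‖x‖) := by field_simp
  rw [h6]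
  exact h5

lemma pole_moment {n : ℕ} (hn : 1 ≤ n) (a : ℝ) :
    ∫ x : X3, pco a x ^ 2 * hh n a x * Real.exp (-(2 / n) * ‖x‖) =
      n ^ 2 * (n + 1) / 2 * Mk n a 0 := by
  have hn0 : (n : ℝ) ≠ 0 := by positivity
  have hn1 : (0 : ℝ) < n := by positivity
  set f : X3 → ℝ := fun x => (pco a x * (n / 2 * ‖x‖ + n ^ 2 / 4)) * hh n a x *
    Real.exp (-(2 / n) * ‖x‖) with hf
  set f' : X3 → ℝ := fun x => (n / 2 * ‖x‖ + n ^ 2 / 4) * hh n a x * Real.exp (-(2 / n) * ‖x‖) -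
    pco a x ^ 2 * hh n a x * Real.exp (-(2 / n) * ‖x‖) with hf'
  have cp : Continuous (pco a) := by unfold pco; fun_prop
  have b1 : ∀ x : X3, |n / 2 * ‖x‖ + (n : ℝ) ^ 2 / 4| ≤ (n ^ 2 : ℝ) * (1 + ‖x‖) ^ 1 := by
    intro x
    rw [abs_of_nonneg (by positivity), pow_one]
    have h1 : (1 : ℝ) ≤ n := by exact_mod_cast hn
    have h2 : (n : ℝ) / 2 ≤ n ^ 2 := by nlinarith
    nlinarith [norm_nonneg x, mul_le_mul_of_nonneg_right h2 (norm_nonneg x)]
  have nf : P363.R.H10.Nice f := by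
    refine nice_mul_hh hn a 2 (C := (n ^ 2 : ℝ)) (by fun_prop) (by positivity) fun x => ?_
    rw [abs_mul]
    calc |pco a x| * |n / 2 * ‖x‖ + (n : ℝ) ^ 2 / 4| ≤ (1 + ‖x‖) * ((n ^ 2 : ℝ) * (1 + ‖x‖) ^ 1) :=
          mul_le_mul ((abs_pco_le a x).trans (by linarith)) (b1 x) (abs_nonneg _)
            (by positivity)
      _ = _ := by ring
  have i1 : P363.R.H10.Nice (fun x : X3 => (n / 2 * ‖x‖ + n ^ 2 / 4) * hh n a x *
      Real.exp (-(2 / n) * ‖x‖)) :=
    nice_mul_hh hn a 1 (C := (n ^ 2 : ℝ)) (by fun_prop) (by positivity) b1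
  have i2 : P363.R.H10.Nice (fun x : X3 => pco a x ^ 2 * hh n a x *
      Real.exp (-(2 / n) * ‖x‖)) := by
    refine nice_mul_hh hn a 2 (C := 1) (by fun_prop) zero_le_one fun x => ?_
    rw [abs_pow, one_mul]
    exact pow_le_pow_left₀ (abs_nonneg _) ((abs_pco_le a x).trans (by linarith)) 2
  have i3 : P363.R.H10.Nice (fun x : X3 => ‖x‖ ^ 1 * hh n a x * Real.exp (-(2 / n) * ‖x‖)) :=
    nice_mul_hh hn a 1 (C := 1) (by fun_prop) zero_le_one (norm_pow_le 1)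
  have i4 : P363.R.H10.Nice (fun x : X3 => ‖x‖ ^ 0 * hh n a x * Real.exp (-(2 / n) * ‖x‖)) :=
    nice_mul_hh hn a 0 (C := 1) (by fun_prop) zero_le_one (norm_pow_le 0)
  have hder : ∀ x : X3, x ≠ 0 → HasLineDerivAt ℝ f (f' x) x (pvec a) := by
    intro x hx
    have hnx : ‖x‖ ≠ 0 := norm_ne_zero_iff.2 hx
    have d1 := hasLineDerivAt_norm' a hx
    have d2 : HasLineDerivAt ℝ (fun y : X3 => n / 2 * ‖y‖ + (n : ℝ) ^ 2 / 4)
        (n / 2 * (pco a x / ‖x‖)) x (pvec a) := by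
      unfold HasLineDerivAt at d1 ⊢
      exact (d1.const_mul _).add_const _
    have d3 : HasLineDerivAt ℝ (fun y : X3 => Real.exp (-(2 / n) * ‖y‖))
        (Real.exp (-(2 / n) * ‖x‖) * (-(2 / n) * (pco a x / ‖x‖))) x (pvec a) := by
      unfold HasLineDerivAt at d1 ⊢
      have := (d1.const_mul (-(2 / n : ℝ))).exp
      simpa using this
    have d4 := P363.R.H10.HasLineDerivAt.mul' (P363.R.H10.HasLineDerivAt.mul'
      (P363.R.H10.HasLineDerivAt.mul' (hasLineDerivAt_pco a x) d2) (hasLineDerivAt_hh n a x)) d3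
    have e : ((1 * (n / 2 * ‖x‖ + (n : ℝ) ^ 2 / 4) + pco a x * (n / 2 * (pco a x / ‖x‖))) *
        hh n a x + pco a x * (n / 2 * ‖x‖ + (n : ℝ) ^ 2 / 4) * 0) * Real.exp (-(2 / n) * ‖x‖) +
        pco a x * (n / 2 * ‖x‖ + (n : ℝ) ^ 2 / 4) * hh n a x *
          (Real.exp (-(2 / n) * ‖x‖) * (-(2 / n) * (pco a x / ‖x‖))) = f' x := by
      rw [hf']
      simp only
      field_simp
      ring
    rw [← e]
    exact d4
  have h0 := P363.R.H10.integral_lineDeriv_zero (by simp) (i1.integrable.sub i2.integrable)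
    hder nf.tendsto
  rw [integral_sub' i1.integrable i2.integrable, sub_eq_zero] at h0
  rw [← h0]
  have e : ∫ x : X3, (n / 2 * ‖x‖ + n ^ 2 / 4) * hh n a x * Real.exp (-(2 / n) * ‖x‖) =
      n / 2 * Mk n a 1 + n ^ 2 / 4 * Mk n a 0 := by
    unfold Mk
    rw [← integral_const_mul, ← integral_const_mul,
      ← integral_add (i3.integrable.const_mul _) (i4.integrable.const_mul _)]
    congr 1; ext x; ring
  rw [e, Mk_one hn]
  ring

end

end Vale.Agent.P370.H253
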