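import Vale.Agent.P370.H253.Light

/-! **Step ST5**: the selection potential is `S` times the rank-two forms. -/

namespace Vale.Agent.P370.H253

open MeasureTheory Finset
open Vale.Agent.P363.Stmt Vale.Agent.P363.R.H10 Vale.Agent.P370.H115
open Vale.Agent.P363.H849 (H1 ip)
open Vale.Agent.P370.H624 (Shell Closed Filled)
open Vale.Agent.P370.H98 (uS uT gUS gUT)
open Vale.Agent.P370.H305

noncomputable section

theorem usStmt (hR : H98.RankStmt) (hK : H98.KapStmt) : USStmt := by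
  intro J m S C R hJ hC hR' f hf g hg
  have hn : 2 ≤ J + 1 := by omega
  have hk : H98.kap (J + 1) ≠ 0 := by
    have h1 := (hK (J + 1) hn).2.1
    have h2 : (0 : ℝ) < 1 / (16 * Real.pi * ((J + 1 : ℕ) : ℝ) ^ 6) := by
      have := Real.pi_pos
      positivity
    intro h3
    rw [h3] at h1
    linarith
  have hsk : H624.sk J = 1 / ((J + 1 : ℕ) : ℝ) := by
    unfold H624.sk; push_cast; rfl
  have hfW := H758.shell_mem_Wsp hf
  have hgW := H758.shell_mem_Wsp hg
  rw [hsk] at hfW hgW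
  have hfg : Integrable (fun x => f.1.1 x * g.1.1 x) :=
    (P363.H849.m1 f).integrable_mul (P363.H849.m1 g)
  have hint : ∀ i ∈ range m, Integrable (fun x =>
      (rC (J + 1) m i x ^ 2 - rS (J + 1) m i x ^ 2) * (f.1.1 x * g.1.1 x)) := by
    intro i _
    obtain ⟨B, hB, hb'⟩ := (nice_sq_sub hn (rang m i)).bd
    refine hfg.bdd_mul (c := B) (nice_sq_sub hn (rang m i)).meas.aestronglyMeasurable
      (Filter.Eventually.of_forall fun x => ?_)
    rw [Real.norm_eq_abs]
    refine (hb' x).trans (div_le_self hB (one_le_pow₀ ?_))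
    linarith [norm_nonneg x]
  have e : (fun x => uS (J + 1) m S x * (f.1.1 x * g.1.1 x)) = fun x =>
      -(S / H98.kap (J + 1)) * ∑ i ∈ range m,
        (rC (J + 1) m i x ^ 2 - rS (J + 1) m i x ^ 2) * (f.1.1 x * g.1.1 x) := by
    ext x; unfold uS; rw [mul_assoc, Finset.sum_mul]
  rw [e, integral_const_mul, integral_finsetSum _ hint]
  have h1 : ∀ i ∈ range m, ∫ x, (rC (J + 1) m i x ^ 2 - rS (J + 1) m i x ^ 2) *
      (f.1.1 x * g.1.1 x) = H98.kap (J + 1) *
        ((∫ x, rC (J + 1) m i x * f.1.1 x) * (∫ x, rC (J + 1) m i x * g.1.1 x)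
          - (∫ x, rS (J + 1) m i x * f.1.1 x) * (∫ x, rS (J + 1) m i x * g.1.1 x)) := by
    intro i _
    exact hR (J + 1) (rang m i) f.1.1 g.1.1 hn hfW hgW
  rw [Finset.sum_congr rfl h1, ← Finset.mul_sum]
  unfold H890.sel
  rw [Finset.sum_range]
  have h2 : ∀ i : Fin m, ip (C i) f * ip (C i) g - ip (R i) f * ip (R i) g =
      (∫ x, rC (J + 1) m i x * f.1.1 x) * (∫ x, rC (J + 1) m i x * g.1.1 x)
          - (∫ x, rS (J + 1) m i x * f.1.1 x) * (∫ x, rS (J + 1) m i x * g.1.1 x) := by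
    intro i
    rw [ip_eq, ip_eq, ip_eq, ip_eq, hC i, hR' i]
  rw [Finset.sum_congr rfl fun i _ => h2 i]
  field_simp

end

end Vale.Agent.P370.H253
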